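import Vale.Agent.P150.Weak.Defs

/-!
The statements that the modules of the weak Poincaré inequality for `β < 1` establish. Each is a
proposition in the inverse temperature `b`; the modules prove them for every `0 < b < 1`.
-/

open MeasureTheory ProbabilityTheory Finset Filter
open scoped Topology

namespace Vale.Agent.P150.Weak

open Gap

/-- Exponential moments of the centred overlap with the planted configuration. -/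
def OverlapSpec (b : ℝ) : Prop :=
  ∃ κ C : ℝ, ∃ q : ℕ → ℕ → ℝ → ℝ, 0 < κ ∧
    (∀ n m : ℕ, ∀ τ : ℝ, 0 ≤ τ → 0 < m → m ≤ n →
      0 ≤ q n m τ ∧ q n m τ ≤ 1 ∧ q n m τ ≤ τ / (1 - b ^ 2) ∧
      pEv b n m τ (fun J u => ev J u fun x =>
        Real.exp (κ / m * ((∑ i, spin x i) - m * q n m τ) ^ 2)) ≤ C) ∧
    (∀ η Tm : ℝ, 0 < η → ∃ c : ℝ, 0 < c ∧ ∀ n m : ℕ, ∀ τ : ℝ,
      η ≤ τ → τ ≤ Tm → 0 < m → m ≤ n → c ≤ q n m τ) ∧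
    ∀ ε : ℝ, 0 < ε → ∃ C' c : ℝ, 0 < c ∧ ∀ n m : ℕ, ∀ τ : ℝ, 0 ≤ τ → 0 < m → m ≤ n →
      pPr b n m τ (fun J u => ε * n ≤ |sq1 (mg J u) - m * q n m τ|) ≤ C' * Real.exp (-(c * n))

/-- All moments of centred overlaps, with Gaussian growth. -/
def CenterSpec (b : ℝ) : Prop :=
  ∃ C : ℝ, ∀ n m p : ℕ, ∀ τ : ℝ, 0 ≤ τ → 1 ≤ p → 0 < n → m ≤ n →
    pEv b n m τ (fun J u => ovPair J u p) ≤ (C * √(p * n)) ^ p ∧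
    pEv b n m τ (fun J u => ovLin J u (fun _ => 1) p) ≤ (C * √(p * n)) ^ p ∧
    pEv b n m τ (fun J u => ovLin J u (mg J u) p) ≤ (C * √(p * n)) ^ p

/-- Moments of squared cumulant norms, with their growth in `p`. -/
def GrowSpec (b : ℝ) : Prop :=
  ∃ C : ℝ, ∀ n m p : ℕ, ∀ τ : ℝ, 0 ≤ τ → 1 ≤ p → 0 < n → m ≤ n →
    pEv b n m τ (fun J u => sq2 (cm2 J u) ^ p) ≤ (C * (p * n)) ^ p ∧
    pEv b n m τ (fun J u => sq3 (cm3 J u) ^ p) ≤ (C * (p * n * √(p * n))) ^ p ∧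
    pEv b n m τ (fun J u => sq1 (vv J u) ^ p) ≤ (C * (p * n * √(p * n))) ^ p

/-- Crude moments of contracted cumulants. -/
def CrudeSpec (b : ℝ) : Prop :=
  ∀ p : ℕ, ∃ C : ℝ, ∀ n m : ℕ, ∀ τ : ℝ, 0 ≤ τ → 0 < n → m ≤ n →
    pEv b n m τ (fun J u => sq4 (cm4 J u) ^ p) ≤ C * ((n:ℝ) ^ 2) ^ p ∧
    pEv b n m τ (fun J u => sq1 (fun i => ∑ j, cm2 J u i j) ^ p) ≤ C * (n * √n) ^ p ∧
    pEv b n m τ (fun J u => sq2 (app (cm3 J u) fun _ => 1) ^ p) ≤ C * ((n:ℝ) ^ 2) ^ p ∧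
    pEv b n m τ (fun J u => sq2 (app (cm3 J u) (mg J u)) ^ p) ≤ C * ((n:ℝ) ^ 2) ^ p ∧
    pEv b n m τ (fun J u => sq1 (fun i => ∑ j, ∑ k, cm3 J u i j k) ^ p) ≤
      C * ((n:ℝ) ^ 2 * √n) ^ p ∧
    pEv b n m τ (fun J u => sq1 (fun i => ∑ j, ∑ k, mg J u j * cm3 J u i j k) ^ p) ≤
      C * ((n:ℝ) ^ 2 * √n) ^ p ∧
    pEv b n m τ (fun J u => sq3 (fun i j k => ∑ l, cm4 J u l i j k) ^ p) ≤
      C * ((n:ℝ) ^ 2 * √n) ^ p ∧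
    pEv b n m τ (fun J u => sq1 (fun i => ∑ j, ∑ k, ∑ l, cm4 J u i j k l) ^ p) ≤
      C * ((n:ℝ) ^ 3 * √n) ^ p ∧
    pEv b n m τ (fun J u => (∑ i, mg J u i * vv J u i) ^ p) ≤ C * (n:ℝ) ^ p

/-- One-spin moments. -/
def SliceSpec (b : ℝ) : Prop :=
  ∀ p : ℕ, ∀ Tm : ℝ, ∃ C : ℝ, ∀ n m : ℕ, ∀ τ : ℝ, 0 ≤ τ → τ ≤ Tm → m + 1 ≤ n →
    ∀ i : Fin (m + 1),
      pEv b n (m + 1) τ (fun J u => sq1 (del i mg J u) ^ p) ≤ C ∧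
      pEv b n (m + 1) τ (fun J u => (1 / vw J u i) ^ p) ≤ C

/-- The operator norm of the planted couplings. -/
def JSpec (b : ℝ) : Prop :=
  (∀ ε : ℝ, 0 < ε → ∃ C c : ℝ, 0 < c ∧ ∀ n m : ℕ, ∀ τ : ℝ, 0 < n → m ≤ n →
    pPr b n m τ (fun J _ => 2 * b + ε < op J) ≤ C * Real.exp (-(c * n))) ∧
  ∀ p : ℕ, ∃ C : ℝ, ∀ n m : ℕ, ∀ τ : ℝ, 0 < n → m ≤ n →
    pEv b n m τ (fun J _ => op J ^ p) ≤ C

/-- The self-bounding second moments. -/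
def RecSpec (b : ℝ) : Prop :=
  (∀ Tm : ℝ, ∃ C : ℝ, ∀ n m : ℕ, ∀ τ : ℝ, 0 ≤ τ → τ ≤ Tm → 0 < n → m ≤ n →
    pEv b n m τ (fun J u => sq3 (cm3 J u)) ≤ C * n ∧
    pEv b n m τ (fun J u => sq1 (vv J u)) ≤ C * n ∧
    pEv b n m τ (fun J u => sq1 (brk J u)) ≤ C * n ∧
    pEv b n m τ (fun J u => ∑ i, brk J u i ^ 4) ≤ C * (n:ℝ) ^ (7 / 4 : ℝ)) ∧
  (∀ η Tm : ℝ, 0 < η → ∃ C : ℝ, ∀ n m : ℕ, ∀ τ : ℝ, η ≤ τ → τ ≤ Tm → 0 < n → m ≤ n →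
    pEv b n m τ (fun J u => sq4 (cm4 J u)) ≤ C * (n * √n))

/-- Uniform integrability of `‖T‖² / n`. -/
def UISpec (b : ℝ) : Prop :=
  ∀ η Tm ε : ℝ, ∀ k : ℕ, 0 < η → 0 < ε → ∃ M : ℝ, ∃ N : ℕ, ∀ n m : ℕ, ∀ τ : ℝ,
    η ≤ τ → τ ≤ Tm → N ≤ n → m ≤ n → n ≤ m + k →
      pEv b n m τ (fun J u => if M * n < sq3 (cm3 J u) then sq3 (cm3 J u) else 0) ≤ ε * n

/-- Linear response up to a Frobenius error of order one. -/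
def RespBoundSpec (b : ℝ) : Prop :=
  ∀ Tm : ℝ, ∃ C : ℝ, ∀ n m : ℕ, ∀ τ : ℝ, 0 ≤ τ → τ ≤ Tm → 0 < n → m ≤ n →
    pEv b n m τ (fun J u => sq2 (resid b n J u)) ≤ C ∧
    pEv b n m τ (fun J u => (∑ i, epsV b n J u i ^ 4) ^ 2) ≤ C / (n:ℝ) ^ 2

/-- The Hessian is positive on `m⊥`. -/
def HessSpec (b : ℝ) : Prop :=
  ∃ η₀ : ℝ, 0 < η₀ ∧ ∀ η : ℝ, 0 < η → η ≤ η₀ → ∀ τ₀ Tm : ℝ, ∀ k : ℕ, 0 < τ₀ → ∃ C : ℝ,
    ∀ n m : ℕ, ∀ τ : ℝ, τ₀ ≤ τ → τ ≤ Tm → k < n → m ≤ n → n ≤ m + k →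
      pPr b n m τ (fun J u => ¬ ∀ v : Vec m, ∑ i, v i * mg J u i = 0 →
        kap b * sq1 v ≤ ∑ i, ∑ j, hA b η n J u i j * v i * v j) ≤ C / (n:ℝ) ^ 2

/-- The covariance norm is bounded in mean square on compact parameter sets. -/
def YTightSpec (b : ℝ) : Prop :=
  ∀ η Tm : ℝ, ∀ k : ℕ, 0 < η → ∃ C : ℝ, ∃ N : ℕ, ∀ n m : ℕ, ∀ τ : ℝ,
    η ≤ τ → τ ≤ Tm → N ≤ n → m ≤ n → n ≤ m + k →
      pEv b n m τ (fun J u => op (cm2 J u) ^ 2) ≤ C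

/-- The soft second moments. -/
def SoftSpec (b : ℝ) : Prop :=
  ∀ η Tm ε : ℝ, ∀ k : ℕ, 0 < η → 0 < ε → ∃ N : ℕ, ∀ n m : ℕ, ∀ τ : ℝ,
    η ≤ τ → τ ≤ Tm → N ≤ n → m ≤ n → n ≤ m + k →
      pEv b n m τ (fun J u => sq2 (app (cm3 J u) fun _ => 1)) ≤ ε * (n:ℝ) ^ 2 ∧
      pEv b n m τ (fun J u => sq2 (gradV J u)) ≤ ε * (n:ℝ) ^ 2

/-- Linear response up to the chaos matrix. -/
def RespSoftSpec (b : ℝ) : Prop :=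
  ∀ η Tm ε : ℝ, ∀ k : ℕ, 0 < η → 0 < ε → ∃ N : ℕ, ∀ n m : ℕ, ∀ τ : ℝ,
    η ≤ τ → τ ≤ Tm → N ≤ n → m + 1 ≤ n → n ≤ m + 1 + k →
      pEv b n (m + 1) τ
        (fun J u => sq2 fun i j => resid b n J u i j + chaosPart b n J u i j) ≤ ε

/-- The chaos matrix is small in operator norm. -/
def GramSpec (b : ℝ) : Prop :=
  ∀ η Tm ε δ : ℝ, ∀ k : ℕ, 0 < η → 0 < ε → 0 < δ → ∃ N : ℕ, ∀ n m : ℕ, ∀ τ : ℝ,
    η ≤ τ → τ ≤ Tm → N ≤ n → m + 1 ≤ n → n ≤ m + 1 + k →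
      pPr b n (m + 1) τ (fun J u => δ < op (chaosPart b n J u)) ≤ ε

/-- The covariance norm exceeds a constant only negligibly. -/
def YSpec (b : ℝ) : Prop :=
  ∀ Tm : ℝ, ∃ K C : ℝ, ∃ N : ℕ,
    (∀ n : ℕ, ∀ τ : ℝ, N ≤ n → 0 ≤ τ → τ ≤ Tm → pEv b n n τ (fun J u => op (cm2 J u)) ≤ C) ∧
    ∀ τ : ℝ, 0 < τ → τ ≤ Tm →
      Tendsto (fun n : ℕ => pEv b n n τ fun J u => max (op (cm2 J u) - K) 0) atTop (𝓝 0)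

/-- The endpoint: a uniform gap when all but few fields are large. -/
def EndpointSpec (b : ℝ) : Prop :=
  ∃ η K T₀ : ℝ, 0 < η ∧ 0 < K ∧ ∀ T : ℝ, T₀ ≤ T →
    Tendsto (fun n : ℕ => disorder n {g | ¬ ∀ u : Vec n,
      ((univ.filter fun i => |u i| < T / 2).card : ℝ) ≤ η * n →
        ∀ f : Conf n → ℝ, var (skJ b g) u f ≤ K * dir (skJ b g) u f}) atTop (𝓝 0)

/-- Transfer from the planted to the null disorder for gauge invariant events. -/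
def ContigSpec (b : ℝ) : Prop :=
  ∀ A : ∀ n : ℕ, Set (Mat n), (∀ n, MeasurableSet (A n)) →
    (∀ n, ∀ J ∈ A n, ∀ x : Conf n, (fun i j => spin x i * spin x j * J i j) ∈ A n) →
    Tendsto (fun n : ℕ => pPr b n n 0 fun J _ => J ∈ A n) atTop (𝓝 0) →
    Tendsto (fun n : ℕ => disorder n {g | skJ b g ∈ A n}) atTop (𝓝 0)

/-- The weak Poincaré inequality with a constant independent of `n`. -/
def WeakPoincareSpec (β : ℝ) : Prop :=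
  ∃ K : ℝ, 0 < K ∧ ∀ ε : ℝ, 0 < ε →
    Tendsto (fun n : ℕ => disorder n {g | ∃ f : Conf n → ℝ, (∀ x, |f x| ≤ 1) ∧
      K * (-avg β g fun x => f x * gen β g f x) + ε <
        avg β g (fun x => f x ^ 2) - avg β g f ^ 2}) atTop (𝓝 0)

end Vale.Agent.P150.Weak
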