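import Vale.Agent.P150.Gap.Model
import Vale.Agent.P150.Interp

/-!
The planted SK family with external field, its joint cumulants, and the one-spin slice operations
(the objects of the weak Poincaré inequality for every `β < 1`).
-/

open MeasureTheory ProbabilityTheory Finset
open scoped Matrix

namespace Vale.Agent.P150.Weak

open Gap

variable {m : ℕ}

/-- Square matrices. -/
abbrev Mat (m : ℕ) := Fin m → Fin m → ℝ

/-- Vectors. -/
abbrev Vec (m : ℕ) := Fin m → ℝ

/-- The index set of the disorder: one standard Gaussian per pair and one per site. -/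
abbrev Idx (m : ℕ) := Edge m ⊕ Fin m

/-- Planted couplings with mean and variance `v` off the diagonal, from standard Gaussians. -/
noncomputable def plJ (v : ℝ) (g : Idx m → ℝ) : Mat m :=
  fun i j => if i = j then 0 else v + √v * sym (fun e => g (.inl e)) i j

/-- Planted fields with mean and variance `τ`, from standard Gaussians. -/
noncomputable def plU (τ : ℝ) (g : Idx m → ℝ) : Vec m :=
  fun i => τ + √τ * g (.inr i)

/-- Expectation in the planted family `P(n, m, τ)` at inverse temperature `b`: `m` spins, pair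
variance `b² / n`. -/
noncomputable def pEv (b : ℝ) (n m : ℕ) (τ : ℝ) (F : Mat m → Vec m → ℝ) : ℝ :=
  ∫ g, F (plJ (b ^ 2 / n) g) (plU τ g) ∂gauss (Idx m)

/-- Probability in the planted family. -/
noncomputable def pPr (b : ℝ) (n m : ℕ) (τ : ℝ) (A : Mat m → Vec m → Prop) : ℝ :=
  (gauss (Idx m)).real {g | A (plJ (b ^ 2 / n) g) (plU τ g)}

/-- Squared Euclidean norm. -/
def sq1 (a : Vec m) : ℝ := ∑ i, a i ^ 2

/-- Squared Frobenius norm of a matrix. -/
def sq2 (A : Mat m) : ℝ := ∑ i, ∑ j, A i j ^ 2

/-- Squared Frobenius norm of a three-tensor. -/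
def sq3 (T : Fin m → Mat m) : ℝ := ∑ i, sq2 (T i)

/-- Squared Frobenius norm of a four-tensor. -/
def sq4 (T : Fin m → Fin m → Mat m) : ℝ := ∑ i, ∑ j, sq2 (T i j)

/-- Operator norm for the Euclidean norm. -/
noncomputable def op (A : Mat m) : ℝ := ‖Matrix.toEuclideanCLM (𝕜 := ℝ) (Matrix.of A)‖

/-- The magnetisation. -/
noncomputable def mg (J : Mat m) (u : Vec m) : Vec m := fun i => ev J u fun x => spin x i

/-- A centred spin. -/
noncomputable def csp (J : Mat m) (u : Vec m) (i : Fin m) (x : Conf m) : ℝ :=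
  spin x i - mg J u i

/-- The covariance matrix. -/
noncomputable def cm2 (J : Mat m) (u : Vec m) : Mat m :=
  fun i j => ev J u fun x => csp J u i x * csp J u j x

/-- The third joint cumulant. -/
noncomputable def cm3 (J : Mat m) (u : Vec m) : Fin m → Mat m :=
  fun i j k => ev J u fun x => csp J u i x * csp J u j x * csp J u k x

/-- The fourth joint cumulant. -/
noncomputable def cm4 (J : Mat m) (u : Vec m) : Fin m → Fin m → Mat m :=
  fun i j k l =>
    (ev J u fun x => csp J u i x * csp J u j x * csp J u k x * csp J u l x) -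
      cm2 J u i j * cm2 J u k l - cm2 J u i k * cm2 J u j l - cm2 J u i l * cm2 J u j k

/-- The variance of a spin, `1 - m_i²`. -/
noncomputable def vw (J : Mat m) (u : Vec m) (i : Fin m) : ℝ := 1 - mg J u i ^ 2

/-- `v = C m`. -/
noncomputable def vv (J : Mat m) (u : Vec m) : Vec m :=
  fun i => ∑ j, cm2 J u i j * mg J u j

/-- `v_i / w_i`. -/
noncomputable def brk (J : Mat m) (u : Vec m) : Vec m := fun i => vv J u i / vw J u i

/-- A three-tensor contracted with a vector: a matrix. -/
def app (T : Fin m → Mat m) (a : Vec m) : Mat m := fun i j => ∑ k, a k * T k i j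

/-- The field derivative of `v`. -/
noncomputable def gradV (J : Mat m) (u : Vec m) : Mat m :=
  fun i j => app (cm3 J u) (mg J u) i j + ∑ k, cm2 J u i k * cm2 J u k j

/-- The centred overlap moments of two replicas. -/
noncomputable def ovPair (J : Mat m) (u : Vec m) (p : ℕ) : ℝ :=
  ev J u fun x => ev J u fun y => |∑ i, csp J u i x * csp J u i y| ^ p

/-- Moments of a centred linear statistic. -/
noncomputable def ovLin (J : Mat m) (u : Vec m) (a : Vec m) (p : ℕ) : ℝ :=
  ev J u fun x => |∑ i, a i * csp J u i x| ^ p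

/-- The normalised longitudinal susceptibility `e' C e`, `e = m / |m|`. -/
noncomputable def xe (J : Mat m) (u : Vec m) : ℝ :=
  (∑ i, mg J u i * vv J u i) / sq1 (mg J u)

/-- `s = n⁻¹ Σ w_i`. -/
noncomputable def sAvg (n : ℕ) (J : Mat m) (u : Vec m) : ℝ := (∑ i, vw J u i) / n

/-- The capped Hessian `A_η = diag (1/(w+η)) + b² s - J`. -/
noncomputable def hA (b η : ℝ) (n : ℕ) (J : Mat m) (u : Vec m) : Mat m :=
  fun i j => (if i = j then 1 / (vw J u i + η) + b ^ 2 * sAvg n J u else 0) - J i j

/-- `A'_η = A_η - 2 b² n⁻¹ m m'`. -/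
noncomputable def hA' (b η : ℝ) (n : ℕ) (J : Mat m) (u : Vec m) : Mat m :=
  fun i j => hA b η n J u i j - 2 * (b ^ 2 / n) * (mg J u i * mg J u j)

/-- `ε_i = b² s - J_i · d⁽ⁱ⁾`, where `C_ia = w_i d⁽ⁱ⁾_a` off the diagonal. -/
noncomputable def epsV (b : ℝ) (n : ℕ) (J : Mat m) (u : Vec m) : Vec m :=
  fun i => b ^ 2 * sAvg n J u - (∑ a, J i a * cm2 J u i a) / vw J u i

/-- The error `(A' - diag ε) C - 1` of linear response. -/
noncomputable def resid (b : ℝ) (n : ℕ) (J : Mat m) (u : Vec m) : Mat m :=
  fun i j => ∑ k, (hA' b 0 n J u i k - if i = k then epsV b n J u i else 0) * cm2 J u k j -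
    if i = j then 1 else 0

/-- `κ(b)`, the stability constant. -/
noncomputable def kap (b : ℝ) : ℝ := (1 - b ^ 2) ^ 2 / 16

section slice

/-- Couplings without the spin `i`. -/
def sub (i : Fin (m + 1)) (J : Mat (m + 1)) : Mat m :=
  fun a c => J (i.succAbove a) (i.succAbove c)

/-- Fields without the spin `i`. -/
def subU (i : Fin (m + 1)) (u : Vec (m + 1)) : Vec m := fun a => u (i.succAbove a)

/-- The couplings of the spin `i`. -/
def rowOf (i : Fin (m + 1)) (J : Mat (m + 1)) : Vec m := fun a => J i (i.succAbove a)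

/-- `(φ(+) + φ(-)) / 2` for the subsystem at fields `h ± J_i`. -/
noncomputable def bar {R : Type*} [AddCommGroup R] [Module ℝ R] (i : Fin (m + 1))
    (φ : Mat m → Vec m → R) (J : Mat (m + 1)) (u : Vec (m + 1)) : R :=
  (1 / 2 : ℝ) • (φ (sub i J) (subU i u + rowOf i J) + φ (sub i J) (subU i u - rowOf i J))

/-- `(φ(+) - φ(-)) / 2` for the subsystem at fields `h ± J_i`. -/
noncomputable def del {R : Type*} [AddCommGroup R] [Module ℝ R] (i : Fin (m + 1))
    (φ : Mat m → Vec m → R) (J : Mat (m + 1)) (u : Vec (m + 1)) : R :=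
  (1 / 2 : ℝ) • (φ (sub i J) (subU i u + rowOf i J) - φ (sub i J) (subU i u - rowOf i J))

/-- The row mean of `bar T`: the kernel of the second chaos, for pair variance `v`. -/
noncomputable def kbar (v : ℝ) (i : Fin (m + 1)) (J : Mat (m + 1)) (u : Vec (m + 1)) :
    Fin m → Mat m :=
  fun a c e => ∫ r : Fin m → ℝ,
    (cm3 (sub i J) (subU i u + fun k => v + √v * r k) a c e +
      cm3 (sub i J) (subU i u - fun k => v + √v * r k) a c e) / 2 ∂gauss (Fin m)

/-- The exact second-chaos row `K[ξ,ξ] - v tr K`, `ξ = J_i - v`, extended by `0` at `i`. -/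
noncomputable def chaosRow (v : ℝ) (J : Mat (m + 1)) (u : Vec (m + 1)) : Mat (m + 1) :=
  fun i => Fin.insertNth i 0 fun a =>
    (∑ c, ∑ e, kbar v i J u a c e * ((rowOf i J c - v) * (rowOf i J e - v))) -
      v * ∑ c, kbar v i J u a c c

/-- `diag(m)` times the chaos matrix. -/
noncomputable def chaosPart (b : ℝ) (n : ℕ) (J : Mat (m + 1)) (u : Vec (m + 1)) : Mat (m + 1) :=
  fun i j => mg J u i * chaosRow (b ^ 2 / n) J u i j

end slice

end Vale.Agent.P150.Weak
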