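import Vale.Agent.P150.Gap.PairLemma

/-!
A pair lemma whose penalty carries the conditional variance of the other spin, as needed when
most local fields are large.
-/

namespace Vale.Agent.P150.Weak

open Gap

/-- The cross term and the first-order term, in the variables `A, B, t`. -/
lemma first_eq {A B t J x y F G τ τ' ρ : ℝ} (hxx : x ^ 2 = 1) (hyy : y ^ 2 = 1)
    (d1 : 1 + A * t * y ≠ 0) (d2 : 1 + B * t * x ≠ 0)
    (n1 : τ * (1 + A * t * y) = A + t * y) (n2 : τ' * (1 + B * t * x) = B + t * x)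
    (n3 : ρ * ((1 + A * t * y) * (1 + B * t * x)) = J * (1 - t ^ 2) * (1 + t * (x * y)) -
      t * (1 + t * (x * y - A * y - B * x)) * ((1 + A * t * y) * (1 + B * t * x))) :
    (1 + A * x) * (1 + B * y) * (1 + t * (x * y)) *
      ((x - τ) * (y - τ') * ((1 + A * t * y) * F * ((1 + B * t * x) * G)) +
        J * ((1 - τ ^ 2) * (1 - τ' ^ 2) * ((1 + A * t * y) * F * ((1 + B * t * x) * G)))) =
      (1 - A ^ 2) * (1 - B ^ 2) * (1 - t ^ 2) * ((x * y * (1 - t * (x * y)) +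
        (1 + A * x) * (1 + B * y) * (t * (1 + t * (x * y - A * y - B * x)))) * (F * G) +
        (1 + A * x) * (1 + B * y) * (ρ * (F * G))) := by
  have e := term_eq (F := F) (G := G) hxx hyy d1 d2 n1 n2 n3
  have m3 : (1 - τ ^ 2) * (1 + A * t * y) ^ 2 = (1 - A ^ 2) * (1 - t ^ 2) := by
    linear_combination -(τ * (1 + A * t * y) + (A + t * y)) * n1 + (A ^ 2 * t ^ 2 - t ^ 2) * hyy
  have m4 : (1 - τ' ^ 2) * (1 + B * t * x) ^ 2 = (1 - B ^ 2) * (1 - t ^ 2) := by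
    linear_combination -(τ' * (1 + B * t * x) + (B + t * x)) * n2 + (B ^ 2 * t ^ 2 - t ^ 2) * hxx
  linear_combination e -
    ((1 + A * x) * (1 + B * y) * (1 + t * (x * y)) * F ^ 2 * (J ^ 2 * τ ^ 2 + 30 * |J| ^ 3)) * m3 -
    ((1 + A * x) * (1 + B * y) * (1 + t * (x * y)) * G ^ 2 * (J ^ 2 * τ' ^ 2 + 30 * |J| ^ 3)) * m4

/-- The lower bound of one term. -/
noncomputable def low (A B t J U S V T x y : ℝ) : ℝ :=
  (1 - A ^ 2) * (1 - B ^ 2) * (1 - t ^ 2) * ((x * y * (1 - t * (x * y)) +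
        (1 + A * x) * (1 + B * y) * (t * (1 + t * (x * y - A * y - B * x)))) *
        ((U + S * y) * (V + T * x)) -
      9 * |J| ^ 3 * ((1 + A * x) * (1 + B * y) * ((U + S * y) ^ 2 + (V + T * x) ^ 2))) +
    (3 * J ^ 2 * (1 - B ^ 2) + 10 * |J| ^ 3) *
      ((1 - A ^ 2) * ((1 + A * x) * (1 + B * y) * (U + S * y) ^ 2)) +
    (3 * J ^ 2 * (1 - A ^ 2) + 10 * |J| ^ 3) *
      ((1 - B ^ 2) * ((1 + A * x) * (1 + B * y) * (V + T * x) ^ 2))

lemma sq_le_psum {A B U S : ℝ} (hB : B ^ 2 ≤ 1) :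
    U ^ 2 ≤ psum (fun x y => (1 + A * x) * (1 + B * y) * (U + S * y) ^ 2) / 2 + 2 * S ^ 2 := by
  simp only [psum]
  nlinarith [sq_nonneg (U + 2 * B * S), mul_nonneg (sub_nonneg.2 hB) (sq_nonneg S)]

lemma bracket_ge {t J U V p q E P1 P2 Br : ℝ} (hJ : J ^ 2 ≤ 1 / 400) (hT : |t| ≤ 1.008 * |J|)
    (ht : |t| ≤ 1 / 19) (hP : 0 ≤ P1 + P2) (hp : p ^ 2 ≤ U ^ 2) (hq : q ^ 2 ≤ V ^ 2)
    (hU : U ^ 2 + V ^ 2 ≤ 0.51 * (P1 + P2) + 8.2 * E ^ 2)
    (hbr : -(t ^ 2 * (1 + 4 * |t|) * (p ^ 2 + q ^ 2)) + E ^ 2 / 2 ≤ Br) :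
    -(3 * J ^ 2 * (P1 + P2)) ≤ 4 * Br := by
  have h1 : t ^ 2 ≤ 1.017 * J ^ 2 := by
    rw [← sq_abs t, ← sq_abs J]
    nlinarith [mul_le_mul hT hT (abs_nonneg t) ((abs_nonneg t).trans hT)]
  have h2 : t ^ 2 * (1 + 4 * |t|) ≤ 1.24 * J ^ 2 := by
    refine (mul_le_mul h1 (show 1 + 4 * |t| ≤ 1.2106 by linarith) (by positivity)
      (by positivity)).trans ?_
    nlinarith [sq_nonneg J]
  have q1 : t ^ 2 * (1 + 4 * |t|) * (p ^ 2 + q ^ 2) ≤
      1.24 * J ^ 2 * (0.51 * (P1 + P2) + 8.2 * E ^ 2) :=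
    mul_le_mul h2 ((add_le_add hp hq).trans hU) (by positivity) (by positivity)
  have q2 := mul_le_mul_of_nonneg_right hJ (sq_nonneg E)
  have q3 := mul_nonneg (sq_nonneg J) hP
  linarith [sq_nonneg E]

lemma sq_le_two {E S t p U : ℝ} (hE : E = S + t * p) (ht : t ^ 2 ≤ 1 / 361) (hp : p ^ 2 ≤ U ^ 2) :
    S ^ 2 ≤ 2 * E ^ 2 + 2 / 361 * U ^ 2 := by
  subst hE
  nlinarith [sq_nonneg (S + 2 * (t * p)), mul_le_mul ht hp (sq_nonneg _) (by norm_num)]

lemma psum_sq_nonneg {A B U S : ℝ} (hB : B ^ 2 ≤ 1) :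
    0 ≤ psum (fun x y => (1 + A * x) * (1 + B * y) * (U + S * y) ^ 2) := by
  simp only [psum]
  nlinarith [sq_nonneg (U + B * S), mul_nonneg (sub_nonneg.2 hB) (sq_nonneg S)]

lemma psum_swap {A B V T : ℝ} :
    psum (fun x y => (1 + A * x) * (1 + B * y) * (V + T * x) ^ 2) =
      psum (fun x y => (1 + B * x) * (1 + A * y) * (V + T * y) ^ 2) := by
  simp only [psum]; ring

lemma final_low {a b k J P1 P2 Br : ℝ} (ha : 0 ≤ a) (ha1 : a ≤ 1) (hb : 0 ≤ b) (hb1 : b ≤ 1)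
    (hk : 0 ≤ k) (hk1 : k ≤ 1) (h1 : 0 ≤ P1) (h2 : 0 ≤ P2)
    (hm : -(3 * J ^ 2 * (P1 + P2)) ≤ 4 * Br) :
    0 ≤ a * b * k * (4 * Br - 9 * |J| ^ 3 * (P1 + P2)) +
      (3 * J ^ 2 * b + 10 * |J| ^ 3) * (a * P1) + (3 * J ^ 2 * a + 10 * |J| ^ 3) * (b * P2) := by
  have hab : 0 ≤ a * b := mul_nonneg ha hb
  have r1 : a * b * k * P1 ≤ a * P1 :=
    mul_le_mul_of_nonneg_right ((mul_le_of_le_one_right hab hk1).trans
      (mul_le_of_le_one_right ha hb1)) h1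
  have r2 : a * b * k * P2 ≤ b * P2 :=
    mul_le_mul_of_nonneg_right ((mul_le_of_le_one_right hab hk1).trans
      (mul_le_of_le_one_left hb ha1)) h2
  have r3 : a * b * k * (3 * J ^ 2 * (P1 + P2)) ≤ a * b * (3 * J ^ 2 * (P1 + P2)) :=
    mul_le_mul_of_nonneg_right (mul_le_of_le_one_right hab hk1) (by positivity)
  have r4 := mul_le_mul_of_nonneg_left hm (mul_nonneg hab hk)
  have r5 := mul_le_mul_of_nonneg_left (add_le_add r1 r2) (by positivity : 0 ≤ 9 * |J| ^ 3)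
  have r6 := mul_nonneg (pow_nonneg (abs_nonneg J) 3) (add_nonneg (mul_nonneg ha h1)
    (mul_nonneg hb h2))
  linarith

lemma sum_low_eq (A B t J U S V T : ℝ) :
    psum (low A B t J U S V T) = (1 - A ^ 2) * (1 - B ^ 2) * (1 - t ^ 2) *
      (psum (fun x y => (x * y * (1 - t * (x * y)) +
        (1 + A * x) * (1 + B * y) * (t * (1 + t * (x * y - A * y - B * x)))) *
        ((U + S * y) * (V + T * x))) -
        9 * |J| ^ 3 * (psum (fun x y => (1 + A * x) * (1 + B * y) * (U + S * y) ^ 2) +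
          psum fun x y => (1 + A * x) * (1 + B * y) * (V + T * x) ^ 2)) +
      (3 * J ^ 2 * (1 - B ^ 2) + 10 * |J| ^ 3) *
        ((1 - A ^ 2) * psum fun x y => (1 + A * x) * (1 + B * y) * (U + S * y) ^ 2) +
      (3 * J ^ 2 * (1 - A ^ 2) + 10 * |J| ^ 3) *
        ((1 - B ^ 2) * psum fun x y => (1 + A * x) * (1 + B * y) * (V + T * x) ^ 2) := by
  simp only [psum, low]
  generalize |J| ^ 3 = J3
  ring

lemma sum_low_nonneg {A B t J U S V T : ℝ} (hA : |A| < 1) (hB : |B| < 1) (hJ : |J| ≤ 1 / 20)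
    (hJt : |t - J| ≤ 3 * |J| ^ 3) (hST : T = S + t * (A * U - B * V)) :
    0 ≤ psum (low A B t J U S V T) := by
  have hA2 : A ^ 2 ≤ 1 := (sq_le_one_iff_abs_le_one A).2 hA.le
  have hB2 : B ^ 2 ≤ 1 := (sq_le_one_iff_abs_le_one B).2 hB.le
  obtain ⟨hT, ht⟩ := abs_le_of_close hJ hJt
  have ht2 : t ^ 2 ≤ 1 / 361 := by rw [← sq_abs]; nlinarith [abs_nonneg t]
  have hAU : (A * U) ^ 2 ≤ U ^ 2 := by
    rw [mul_pow]; exact mul_le_of_le_one_left (sq_nonneg _) hA2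
  have hBV : (B * V) ^ 2 ≤ V ^ 2 := by
    rw [mul_pow]; exact mul_le_of_le_one_left (sq_nonneg _) hB2
  have hbr := poly_bound (p := A * U) (q := B * V) (R := (S + T) / 2) (AB := A * B)
    (c := 1 - A ^ 2 - B ^ 2) (t := t) (by linarith)
      (by rw [abs_mul]; exact mul_le_one₀ hA.le (abs_nonneg _) hB.le)
      (abs_le.2 ⟨by linarith, by nlinarith [sq_nonneg A, sq_nonneg B]⟩)
  have hp1 := sq_le_psum (A := A) (U := U) (S := S) hB2
  have hp2 := sq_le_psum (A := B) (U := V) (S := T) hA2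
  have h1 := psum_sq_nonneg (A := A) (U := U) (S := S) hB2
  have h2 := psum_sq_nonneg (A := B) (U := V) (S := T) hA2
  rw [← psum_swap] at hp2 h2
  have hS := sq_le_two (E := (S + T) / 2 + t * (A * U + B * V) / 2) (by rw [hST]; ring) ht2 hAU
  have hT2 := sq_le_two (E := (S + T) / 2 + t * (A * U + B * V) / 2) (S := T) (p := B * V)
    (by rw [hST]; ring) ht2 hBV
  rw [sum_low_eq, bracket_eq A B t U V S T _ rfl hST]
  refine final_low (by linarith) (by linarith [sq_nonneg A]) (by linarith)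
    (by linarith [sq_nonneg B]) (by linarith) (by linarith [sq_nonneg t]) h1 h2 ?_
  refine bracket_ge (by rw [← sq_abs]; nlinarith [abs_nonneg J]) hT ht (add_nonneg h1 h2) hAU hBV
    ?_ hbr
  linarith [sq_nonneg ((S + T) / 2 + t * (A * U + B * V) / 2)]

lemma pen_le {A B t J x y : ℝ} (hA : |A| ≤ 1) (hB : |B| ≤ 1) (hJ : |J| ≤ 1 / 20)
    (ht : |t| ≤ 1 / 19) (hx : x = 1 ∨ x = -1) (hy : y = 1 ∨ y = -1) :
    3 * J ^ 2 * (1 - B ^ 2) + 10 * |J| ^ 3 ≤ (1 + t * (x * y)) * (1 - t ^ 2) *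
      (4 * J ^ 2 * (1 - ((B + t * x) / (1 + B * t * x)) ^ 2) + 11 * |J| ^ 3) := by
  have hxx : x ^ 2 = 1 := by rcases hx with rfl | rfl <;> norm_num
  have hB2 : 0 ≤ 1 - B ^ 2 := by linarith [(sq_le_one_iff_abs_le_one B).2 hB]
  have hs : |B * t * x| ≤ |t| := by
    rcases hx with rfl | rfl <;> simpa [abs_mul] using mul_le_of_le_one_left (abs_nonneg t) hB
  have hd : 0 < 1 + B * t * x := by linarith [neg_abs_le (B * t * x)]
  have e : 1 - ((B + t * x) / (1 + B * t * x)) ^ 2 =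
      (1 - B ^ 2) * (1 - t ^ 2) / (1 + B * t * x) ^ 2 := by
    field_simp
    linear_combination (B ^ 2 * t ^ 2 - t ^ 2) * hxx
  have ht2 : t ^ 2 ≤ 1 / 361 := by rw [← sq_abs]; nlinarith [abs_nonneg t]
  have hd2 : (1 + B * t * x) ^ 2 ≤ 1.109 := by nlinarith [abs_le.1 hs]
  have h1 : 0.898 * (1 - B ^ 2) ≤ (1 - B ^ 2) * (1 - t ^ 2) / (1 + B * t * x) ^ 2 := by
    rw [le_div_iff₀ (by positivity)]
    nlinarith [mul_le_mul_of_nonneg_left hd2 hB2, mul_le_mul_of_nonneg_left ht2 hB2]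
  have hxy : |t * (x * y)| ≤ |t| := by
    rcases hx with rfl | rfl <;> rcases hy with rfl | rfl <;> simp
  have h2 : 0.944 ≤ (1 + t * (x * y)) * (1 - t ^ 2) := by nlinarith [abs_le.1 hxy]
  have hj : 0 ≤ |J| ^ 3 := by positivity
  rw [e]
  have h4 := mul_le_mul h2 (add_le_add_right
    (mul_le_mul_of_nonneg_left h1 (by positivity : 0 ≤ 4 * J ^ 2)) (11 * |J| ^ 3))
    (by positivity) (le_trans (by norm_num) h2)
  nlinarith [mul_nonneg (sq_nonneg J) hB2]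

lemma low_comb {a b k W M J3 ρ F G c1 c2 L1 L2 : ℝ} (ha : 0 ≤ a) (hb : 0 ≤ b) (hk : 0 ≤ k)
    (hW : 0 ≤ W) (hρ : -(9 * J3 * (F ^ 2 + G ^ 2)) ≤ ρ * (F * G)) (h1 : c1 ≤ L1) (h2 : c2 ≤ L2) :
    a * b * k * (M * (F * G) - 9 * J3 * (W * (F ^ 2 + G ^ 2))) + c1 * (a * (W * F ^ 2)) +
        c2 * (b * (W * G ^ 2)) ≤
      a * b * k * (M * (F * G) + W * (ρ * (F * G))) + L1 * (a * (W * F ^ 2)) +
        L2 * (b * (W * G ^ 2)) := by
  have e0 := mul_le_mul_of_nonneg_left hρ (by positivity : 0 ≤ a * b * k * W)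
  have e1 := mul_le_mul_of_nonneg_right h1 (by positivity : 0 ≤ a * (W * F ^ 2))
  have e2 := mul_le_mul_of_nonneg_right h2 (by positivity : 0 ≤ b * (W * G ^ 2))
  linarith

lemma rhs_eq {W z P Q N a b k c d F G w w' L1 L2 : ℝ}
    (e : W * z * (P * (c * F * (d * G)) + Q * (w * w' * (c * F * (d * G)))) = N)
    (m3 : w * c ^ 2 = a * k) (m4 : w' * d ^ 2 = b * k) :
    N + z * k * L1 * (a * (W * F ^ 2)) + z * k * L2 * (b * (W * G ^ 2)) =
      W * z * (P * (c * F * (d * G)) + Q * (w * w' * (c * F * (d * G))) + L1 * (w * (c * F) ^ 2) +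
        L2 * (w' * (d * G) ^ 2)) := by
  linear_combination (-1 : ℝ) * e - (W * z * F ^ 2 * L1) * m3 - (W * z * G ^ 2 * L2) * m4

lemma low_le {A B t J U S V T x y : ℝ} (hA : |A| < 1) (hB : |B| < 1) (hJ : |J| ≤ 1 / 20)
    (hJt : |t - J| ≤ 3 * |J| ^ 3) (hx : x = 1 ∨ x = -1) (hy : y = 1 ∨ y = -1)
    (hd1 : 0 < 1 + A * t * y) (hd2 : 0 < 1 + B * t * x) :
    low A B t J U S V T x y ≤ (1 + A * x) * (1 + B * y) * (1 + t * (x * y)) *
      ((x - (A + t * y) / (1 + A * t * y)) * (y - (B + t * x) / (1 + B * t * x)) *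
          ((1 + A * t * y) * (U + S * y) * ((1 + B * t * x) * (V + T * x))) +
        J * ((1 - ((A + t * y) / (1 + A * t * y)) ^ 2) * (1 - ((B + t * x) / (1 + B * t * x)) ^ 2) *
          ((1 + A * t * y) * (U + S * y) * ((1 + B * t * x) * (V + T * x)))) +
        (4 * J ^ 2 * (1 - ((B + t * x) / (1 + B * t * x)) ^ 2) + 11 * |J| ^ 3) *
          ((1 - ((A + t * y) / (1 + A * t * y)) ^ 2) * ((1 + A * t * y) * (U + S * y)) ^ 2) +
        (4 * J ^ 2 * (1 - ((A + t * y) / (1 + A * t * y)) ^ 2) + 11 * |J| ^ 3) *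
          ((1 - ((B + t * x) / (1 + B * t * x)) ^ 2) * ((1 + B * t * x) * (V + T * x)) ^ 2)) := by
  have hxx : x ^ 2 = 1 := by rcases hx with rfl | rfl <;> norm_num
  have hyy : y ^ 2 = 1 := by rcases hy with rfl | rfl <;> norm_num
  have hAx : 0 ≤ 1 + A * x := by
    rcases hx with rfl | rfl <;> linarith [le_abs_self A, neg_abs_le A]
  have hBy : 0 ≤ 1 + B * y := by
    rcases hy with rfl | rfl <;> linarith [le_abs_self B, neg_abs_le B]
  have hA2 : 0 ≤ 1 - A ^ 2 := by linarith [(sq_le_one_iff_abs_le_one A).2 hA.le]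
  have hB2 : 0 ≤ 1 - B ^ 2 := by linarith [(sq_le_one_iff_abs_le_one B).2 hB.le]
  obtain ⟨hT, ht⟩ := abs_le_of_close hJ hJt
  have ht2 : 0 ≤ 1 - t ^ 2 := by nlinarith [sq_abs t, abs_nonneg t]
  set ρ := J * (1 - t ^ 2) * (1 + t * (x * y)) /
      ((1 + A * t * y) * (1 + B * t * x)) - t * (1 + t * (x * y - A * y - B * x)) with hρ
  have n3 : ρ * ((1 + A * t * y) * (1 + B * t * x)) = J * (1 - t ^ 2) * (1 + t * (x * y)) -
      t * (1 + t * (x * y - A * y - B * x)) * ((1 + A * t * y) * (1 + B * t * x)) := by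
    rw [hρ, sub_mul, div_mul_cancel₀ _ (mul_ne_zero hd1.ne' hd2.ne')]
  set τ := (A + t * y) / (1 + A * t * y)
  set τ' := (B + t * x) / (1 + B * t * x)
  have n1 : τ * (1 + A * t * y) = A + t * y := div_mul_cancel₀ _ hd1.ne'
  have n2 : τ' * (1 + B * t * x) = B + t * x := div_mul_cancel₀ _ hd2.ne'
  have e := first_eq (F := U + S * y) (G := V + T * x) hxx hyy hd1.ne' hd2.ne' n1 n2 n3
  have m3 : (1 - τ ^ 2) * (1 + A * t * y) ^ 2 = (1 - A ^ 2) * (1 - t ^ 2) := by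
    linear_combination -(τ * (1 + A * t * y) + (A + t * y)) * n1 + (A ^ 2 * t ^ 2 - t ^ 2) * hyy
  have m4 : (1 - τ' ^ 2) * (1 + B * t * x) ^ 2 = (1 - B ^ 2) * (1 - t ^ 2) := by
    linear_combination -(τ' * (1 + B * t * x) + (B + t * x)) * n2 + (B ^ 2 * t ^ 2 - t ^ 2) * hxx
  have hr := rho_term (F := U + S * y) (G := V + T * x) (rho_bound hA.le hB.le hJ hJt hx hy)
  rw [← hρ] at hr
  have p1 := pen_le hA.le hB.le hJ ht hx hy
  have p2 := pen_le hB.le hA.le hJ ht hy hx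
  rw [mul_comm y x] at p2
  unfold low
  exact (low_comb hA2 hB2 ht2 (mul_nonneg hAx hBy) hr p1 p2).trans_eq (rhs_eq e m3 m4)

/-- **Pair lemma at large fields.** -/
theorem pair_nonneg {a b J u v C : ℝ} (hJ : |J| ≤ 1 / 20) :
    0 ≤ psum fun x y => Real.exp (a * x + b * y + J * (x * y)) *
      ((x - Real.tanh (a + J * y)) * (y - Real.tanh (b + J * x)) * ((u + C * y) * (v + C * x)) +
        J * ((1 - Real.tanh (a + J * y) ^ 2) * (1 - Real.tanh (b + J * x) ^ 2) *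
          ((u + C * y) * (v + C * x))) +
        (4 * J ^ 2 * (1 - Real.tanh (b + J * x) ^ 2) + 11 * |J| ^ 3) *
          ((1 - Real.tanh (a + J * y) ^ 2) * (u + C * y) ^ 2) +
        (4 * J ^ 2 * (1 - Real.tanh (a + J * y) ^ 2) + 11 * |J| ^ 3) *
          ((1 - Real.tanh (b + J * x) ^ 2) * (v + C * x) ^ 2)) := by
  set A := Real.tanh a with hAdef
  set B := Real.tanh b with hBdef
  set t := Real.tanh J with htdef
  have hA : |A| < 1 := abs_tanh_lt_one a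
  have hB : |B| < 1 := abs_tanh_lt_one b
  have hJt : |t - J| ≤ 3 * |J| ^ 3 := abs_tanh_sub_self hJ
  obtain ⟨-, ht⟩ := abs_le_of_close hJ hJt
  have hd : ∀ {E y : ℝ}, |E| < 1 → (y = 1 ∨ y = -1) → 0 < 1 + E * t * y := by
    intro E y hE hy
    have : |E * t * y| ≤ |t| := by
      rcases hy with rfl | rfl <;> simpa [abs_mul] using
        mul_le_of_le_one_left (abs_nonneg t) hE.le
    linarith [neg_abs_le (E * t * y)]
  have da := (hd hA (.inl rfl : (1:ℝ) = 1 ∨ _)).ne'; have da' := (hd hA (.inr rfl : (-1:ℝ) = 1 ∨ _)).ne'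
  have db := (hd hB (.inl rfl : (1:ℝ) = 1 ∨ _)).ne'; have db' := (hd hB (.inr rfl : (-1:ℝ) = 1 ∨ _)).ne'
  obtain ⟨U, hU⟩ : ∃ U, U = ((u + C) / (1 + A * t * 1) + (u - C) / (1 + A * t * -1)) / 2 := ⟨_, rfl⟩
  obtain ⟨S, hS⟩ : ∃ S, S = ((u + C) / (1 + A * t * 1) - (u - C) / (1 + A * t * -1)) / 2 := ⟨_, rfl⟩
  obtain ⟨V, hV⟩ : ∃ V, V = ((v + C) / (1 + B * t * 1) + (v - C) / (1 + B * t * -1)) / 2 := ⟨_, rfl⟩
  obtain ⟨T, hT'⟩ : ∃ T, T = ((v + C) / (1 + B * t * 1) - (v - C) / (1 + B * t * -1)) / 2 := ⟨_, rfl⟩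
  have eu : ∀ y : ℝ, (y = 1 ∨ y = -1) → u + C * y = (1 + A * t * y) * (U + S * y) := by
    intro y hy
    have h1 : U + S = (u + C) / (1 + A * t * 1) := by rw [hU, hS]; ring
    have h2 : U - S = (u - C) / (1 + A * t * -1) := by rw [hU, hS]; ring
    rw [eq_div_iff da] at h1
    rw [eq_div_iff da'] at h2
    rcases hy with rfl | rfl
    · linear_combination -h1
    · linear_combination -h2
  have ev : ∀ x : ℝ, (x = 1 ∨ x = -1) → v + C * x = (1 + B * t * x) * (V + T * x) := by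
    intro x hx
    have h1 : V + T = (v + C) / (1 + B * t * 1) := by rw [hV, hT']; ring
    have h2 : V - T = (v - C) / (1 + B * t * -1) := by rw [hV, hT']; ring
    rw [eq_div_iff db] at h1
    rw [eq_div_iff db'] at h2
    rcases hx with rfl | rfl
    · linear_combination -h1
    · linear_combination -h2
  have hST : T = S + t * (A * U - B * V) := by
    linear_combination (eu 1 (.inl rfl) - eu (-1) (.inr rfl)) / 2 -
      (ev 1 (.inl rfl) - ev (-1) (.inr rfl)) / 2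
  have h0 := (sum_low_nonneg hA hB hJ hJt hST).trans (psum_mono fun x y hx hy =>
    low_le (U := U) (S := S) (V := V) (T := T) hA hB hJ hJt hx hy (hd hA hy) (hd hB hx))
  have hk : 0 ≤ Real.cosh a * Real.cosh b * Real.cosh J := by positivity
  have key : ∀ x y : ℝ, (x = 1 ∨ x = -1) → (y = 1 ∨ y = -1) →
      Real.exp (a * x + b * y + J * (x * y)) = Real.cosh a * Real.cosh b * Real.cosh J *
        ((1 + A * x) * (1 + B * y) * (1 + t * (x * y))) := by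
    intro x y hx hy
    have hxy : x * y = 1 ∨ x * y = -1 := by
      rcases hx with rfl | rfl <;> rcases hy with rfl | rfl <;> norm_num
    rw [Real.exp_add, Real.exp_add, exp_eq_tanh a hx, exp_eq_tanh b hy, exp_eq_tanh J hxy]; ring
  refine (mul_nonneg hk h0).trans (le_of_eq ?_)
  simp only [psum]
  rw [← eu 1 (.inl rfl), ← eu (-1) (.inr rfl), ← ev 1 (.inl rfl), ← ev (-1) (.inr rfl)]
  simp only [tanh_add_pm a J (.inl rfl), tanh_add_pm a J (.inr rfl), tanh_add_pm b J (.inl rfl),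
    tanh_add_pm b J (.inr rfl), key 1 1 (.inl rfl) (.inl rfl), key 1 (-1) (.inl rfl) (.inr rfl),
    key (-1) 1 (.inr rfl) (.inl rfl), key (-1) (-1) (.inr rfl) (.inr rfl), ← hAdef, ← hBdef,
    ← htdef]
  ring

end Vale.Agent.P150.Weak
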