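import Vale.Agent.P150.Gap.PastHalf
import Vale.Agent.P150.Weak.Pair

/-!
Endpoint of the localisation: a Poincaré inequality when all but few external fields are large,
for couplings of bounded norm with small principal blocks.
-/

open Finset

namespace Vale.Agent.P150.Weak

open Gap

variable {n : ℕ}

/-- The penalty of the site `i` in the large-field pair lemma for the pair `i, j`. -/
noncomputable def pen (J : Fin n → Fin n → ℝ) (h : Fin n → ℝ) (i j : Fin n) (f : Conf n → ℝ)
    (x : Conf n) : ℝ :=
  (4 * J i j ^ 2 * (1 - mag J h j x ^ 2) + 11 * |J i j| ^ 3) *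
    ((1 - mag J h i x ^ 2) * dd f i x ^ 2)

/-- The cross term of the pair `i, j` with its compensations. -/
noncomputable def pairTerm (J : Fin n → Fin n → ℝ) (h : Fin n → ℝ) (i j : Fin n) (f : Conf n → ℝ)
    (x : Conf n) : ℝ :=
  proj J h i f x * proj J h j f x +
    J i j * ((1 - mag J h i x ^ 2) * (1 - mag J h j x ^ 2) * (dd f i x * dd f j x)) +
    pen J h i j f x + pen J h j i f x

lemma ev_pairTerm_nonneg {J : Fin n → Fin n → ℝ} (hJ : IsCoupling J) (h : Fin n → ℝ) {i j : Fin n}
    (hij : i ≠ j) (hd : |J i j| ≤ 1 / 20) (f : Conf n → ℝ) :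
    0 ≤ ev J h (pairTerm J h i j f) := by
  rw [ev, sum_two (fun x => mu J h x * pairTerm J h i j f x) i,
    sum_two (fun x => mu J h (Function.update x i true) * _ + _) j]
  refine div_nonneg (div_nonneg (sum_nonneg fun x _ => ?_) zero_le_two) zero_le_two
  obtain ⟨K, hK, hmu⟩ := wt_update_two hJ h hij x
  set a := localField J h i x - J i j * spin x j with ha
  set b := localField J h j x - J i j * spin x i with hb
  have key := pair_nonneg (a := a) (b := b)
    (u := (dd f i (Function.update x j true) + dd f i (Function.update x j false)) / 2)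
    (v := (dd f j (Function.update x i true) + dd f j (Function.update x i false)) / 2)
    (C := (dd f i (Function.update x j true) - dd f i (Function.update x j false)) / 2) hd
  have hCC : dd f i (Function.update x j true) - dd f i (Function.update x j false) =
      dd f j (Function.update x i true) - dd f j (Function.update x i false) := by
    simp only [dd, upd_comm x hij]
    ring
  have mi : ∀ s t : Bool, mag J h i (Function.update (Function.update x j t) i s) =
      Real.tanh (a + J i j * sgn t) := by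
    intro s t; rw [mag_update hJ, mag, field_update_ne, ha]; ring_nf
  have mj : ∀ s t : Bool, mag J h j (Function.update (Function.update x j t) i s) =
      Real.tanh (b + J i j * sgn s) := by
    intro s t
    rw [mag, field_update_ne, field_update hJ, spin_update_ne x hij, hJ.symm j i, hb]
    ring_nf
  have di : ∀ s t : Bool, dd f i (Function.update (Function.update x j t) i s) =
      (dd f i (Function.update x j true) + dd f i (Function.update x j false)) / 2 +
      (dd f i (Function.update x j true) - dd f i (Function.update x j false)) / 2 * sgn t := by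
    intro s t; rw [dd_update]; cases t <;> simp only [sgn, if_true, Bool.false_eq_true, if_false] <;> ring
  have dj : ∀ s t : Bool, dd f j (Function.update (Function.update x j t) i s) =
      (dd f j (Function.update x i true) + dd f j (Function.update x i false)) / 2 +
      (dd f i (Function.update x j true) - dd f i (Function.update x j false)) / 2 * sgn s := by
    intro s t
    rw [upd_comm x hij, dd_update, hCC]
    cases s <;> simp only [sgn, if_true, Bool.false_eq_true, if_false] <;> ring
  have si : ∀ s t : Bool, spin (Function.update (Function.update x j t) i s) i = sgn s :=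
    fun s t => spin_update_self _ i s
  have sj : ∀ s t : Bool, spin (Function.update (Function.update x j t) i s) j = sgn t := by
    intro s t; rw [spin_update_ne _ hij.symm, spin_update_self]
  refine (mul_nonneg hK.le key).trans (le_of_eq ?_)
  simp only [psum, pairTerm, pen, proj, mi, mj, di, dj, si, sj, hmu, hJ.symm j i, sgn, if_true,
    Bool.false_eq_true, if_false]
  ring

/-- `E[(Hf)²] ≥ (1 - c) E[f Hf]` when the first-order form and the penalties are below `c`. -/
lemma ev_sq_ge_weight {J : Fin n → Fin n → ℝ} {lam r d R : ℝ} (hJ : IsCoupling J)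
    (hd : ∀ i j, |J i j| ≤ d) (hd0 : d ≤ 1 / 20) (hR : ∀ i, ∑ j, J i j ^ 2 ≤ R) (h : Fin n → ℝ)
    (hr : ∀ x i, ∑ j, J i j ^ 2 * (1 - mag J h j x ^ 2) ≤ r)
    (hq : ∀ x (u : Fin n → ℝ),
      ∑ i, ∑ j, J i j * ((1 - mag J h i x ^ 2) * u i) * ((1 - mag J h j x ^ 2) * u j) ≤
        lam * ∑ i, (1 - mag J h i x ^ 2) * u i ^ 2) (f : Conf n → ℝ) :
    (1 - (lam + 8 * r + 22 * d * R)) * ∑ i, form J h i f f ≤
      ev J h (fun x => (∑ i, proj J h i f x) * ∑ i, proj J h i f x) := by
  have hpair : ∀ i j, (if i = j then form J h i f f else 0) ≤ ev J h (pairTerm J h i j f) := by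
    intro i j
    rcases eq_or_ne i j with rfl | hij
    · refine le_of_eq ?_
      rw [if_pos rfl, ← ev_proj_sq hJ]
      exact congrArg (ev J h) (funext fun x => by simp [pairTerm, pen, hJ.diag])
    · rw [if_neg hij]
      exact ev_pairTerm_nonneg hJ h hij ((hd i j).trans hd0) f
  have hsum := sum_le_sum fun i (_ : i ∈ univ) => sum_le_sum fun j (_ : j ∈ univ) => hpair i j
  have hpt : ∀ i j, ev J h (pairTerm J h i j f) =
      ev J h (fun x => proj J h i f x * proj J h j f x) + ev J h (fun x => J i j *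
        ((1 - mag J h i x ^ 2) * (1 - mag J h j x ^ 2) * (dd f i x * dd f j x))) +
      ev J h (pen J h i j f) + ev J h (pen J h j i f) := fun i j => by
    rw [← ev_add, ← ev_add, ← ev_add]; rfl
  simp only [sum_ite_eq, mem_univ, if_true, hpt, sum_add_distrib] at hsum
  rw [sum_comm (f := fun i j => ev J h (pen J h j i f))] at hsum
  have hsq : ∑ i, ∑ j, ev J h (fun x => proj J h i f x * proj J h j f x) =
      ev J h (fun x => (∑ i, proj J h i f x) * ∑ i, proj J h i f x) := by
    simp only [← ev_sum]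
    exact congrArg (ev J h) (funext fun x => (sum_mul_sum _ _ _ _).symm)
  set T := ∑ i, ∑ j, ev J h (fun x => J i j *
    ((1 - mag J h i x ^ 2) * (1 - mag J h j x ^ 2) * (dd f i x * dd f j x)))
  have hT : T + 2 * ∑ i, ∑ j, ev J h (pen J h i j f) ≤
      (lam + 8 * r + 22 * d * R) * ∑ i, form J h i f f := by
    simp only [T, form, ← ev_sum, ← ev_smul, ← ev_add]
    refine ev_mono J h fun x => ?_
    have q := hq x fun i => dd f i x
    have p : ∀ i, ∑ j, pen J h i j f x ≤
        (4 * r + 11 * d * R) * ((1 - mag J h i x ^ 2) * dd f i x ^ 2) := fun i => by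
      simp only [pen, ← sum_mul, sum_add_distrib, mul_assoc, ← mul_sum]
      refine mul_le_mul_of_nonneg_right (add_le_add
        (mul_le_mul_of_nonneg_left (hr x i) (by norm_num)) ?_)
        (mul_nonneg (by linarith [mag_sq_lt J h i x]) (sq_nonneg _))
      refine mul_le_mul_of_nonneg_left ?_ (by norm_num)
      calc ∑ j, |J i j| ^ 3 ≤ ∑ j, d * J i j ^ 2 := sum_le_sum fun j _ => by
            rw [pow_succ', sq_abs]; exact mul_le_mul_of_nonneg_right (hd i j) (sq_nonneg _)
        _ ≤ d * R := by
            rw [← mul_sum]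
            exact mul_le_mul_of_nonneg_left (hR i) ((abs_nonneg _).trans (hd i i))
    calc _ ≤ lam * ∑ i, (1 - mag J h i x ^ 2) * dd f i x ^ 2 + 2 * ∑ i,
          (4 * r + 11 * d * R) * ((1 - mag J h i x ^ 2) * dd f i x ^ 2) := by
          refine add_le_add (le_trans (le_of_eq ?_) q)
            (mul_le_mul_of_nonneg_left (sum_le_sum fun i _ => p i) zero_le_two)
          exact sum_congr rfl fun i _ => sum_congr rfl fun j _ => by ring
      _ = _ := by
          simp only [mul_sum, ← sum_add_distrib]
          exact sum_congr rfl fun i _ => by ring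
  linarith

lemma bilin_le {J : Fin n → Fin n → ℝ} {L : ℝ} (hJ : IsCoupling J) (hup : QuadLe J L)
    (hlo : QuadLe (fun i j => -J i j) L) (a b : Fin n → ℝ) :
    2 * ∑ i, ∑ j, J i j * a i * b j ≤ L * (∑ i, a i ^ 2 + ∑ i, b i ^ 2) := by
  have h1 := hup fun i => a i + b i
  have h2 := hlo fun i => a i - b i
  have hs : ∑ i, ∑ j, J i j * b i * a j = ∑ i, ∑ j, J i j * a i * b j := by
    rw [sum_comm]; exact sum_congr rfl fun i _ => sum_congr rfl fun j _ => by rw [hJ.symm]; ring
  simp only [add_mul, sub_mul, mul_add, mul_sub, neg_mul, add_sq, sub_sq,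
    sum_add_distrib, sum_sub_distrib, sum_neg_distrib] at h1 h2
  linarith

lemma sum_field_sq_le {J : Fin n → Fin n → ℝ} {L : ℝ} (hL : 0 < L) (hJ : IsCoupling J)
    (hup : QuadLe J L) (hlo : QuadLe (fun i j => -J i j) L) (x : Conf n) :
    ∑ i, (∑ j, J i j * spin x j) ^ 2 ≤ L ^ 2 * n := by
  set y := fun i => ∑ j, J i j * spin x j with hy
  have h := bilin_le hJ hup hlo (fun i => y i / L) (spin x)
  have e : ∑ i, ∑ j, J i j * (y i / L) * spin x j = (∑ i, y i ^ 2) / L := by
    rw [sum_div]
    refine sum_congr rfl fun i _ => ?_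
    rw [show ∑ j, J i j * (y i / L) * spin x j = y i / L * y i by
      rw [hy, mul_sum]; exact sum_congr rfl fun j _ => by ring]
    ring
  have e2 : ∑ i, (y i / L) ^ 2 = (∑ i, y i ^ 2) / L ^ 2 := by
    rw [sum_div]; exact sum_congr rfl fun i _ => div_pow _ _ _
  have e3 : ∑ i, spin x i ^ 2 = n := by simp [pow_two, spin_sq]
  rw [e, e2, e3, mul_add, show L * ((∑ i, y i ^ 2) / L ^ 2) = (∑ i, y i ^ 2) / L by field_simp,
    two_mul, add_le_add_iff_left, div_le_iff₀ hL] at h
  linarith

lemma sum_block_le {J : Fin n → Fin n → ℝ} {η δ L : ℝ} (hδ : 0 < δ) (hJ : IsCoupling J)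
    (hlo : QuadLe (fun i j => -J i j) L) (hL : 0 ≤ L) (hsmall : SmallBlock J η δ) (i : Fin n)
    (S : Finset (Fin n)) (hS : (S.card : ℝ) + 1 ≤ η * n) :
    ∑ j ∈ S, J i j ^ 2 ≤ δ * (δ + L) := by
  set z : Fin n → ℝ := fun j => if j ∈ S then J i j else 0 with hz
  set N := ∑ j ∈ S, J i j ^ 2 with hN
  have hzi : z i = 0 := by simp only [hz]; split_ifs <;> simp [hJ.diag]
  have hzz : ∑ j, z j ^ 2 = N := by simp [hz, hN, ite_pow]
  have hJz : ∑ j, J i j * z j = N := by simp [hz, hN, mul_ite, ← pow_two]
  set a := N / δ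
  set v : Fin n → ℝ := fun k => (if k = i then a else 0) + z k with hv
  have hc : ((univ.filter fun k => v k ≠ 0).card : ℝ) ≤ η * n := by
    refine le_trans ?_ hS
    have : (univ.filter fun k => v k ≠ 0) ⊆ insert i S := fun k hk => by
      by_contra hn'
      simp only [mem_insert, not_or] at hn'
      simp [hv, hz, hn'.1, hn'.2] at hk
    exact_mod_cast (card_le_card this).trans (card_insert_le _ _)
  have h := hsmall v hc
  have e1 : ∑ k, v k ^ 2 = a ^ 2 + N := by
    rw [← hzz, ← add_sum_erase univ (fun k => v k ^ 2) (mem_univ i),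
      ← add_sum_erase univ (fun k => z k ^ 2) (mem_univ i), hzi]
    simp only [hv, hzi, if_true, add_zero, pow_two, mul_zero, zero_add]
    congr 1
    exact sum_congr rfl fun k hk => by rw [if_neg (ne_of_mem_erase hk), zero_add]
  have e2 : ∑ k, ∑ l, J k l * v k * v l = 2 * a * N + ∑ k, ∑ l, J k l * z k * z l := by
    have hleft : ∀ w : Fin n → ℝ, ∑ k, ∑ l, J k l * (if k = i then a else 0) * w l =
        a * ∑ l, J i l * w l := fun w => by
      rw [sum_eq_single i (fun k _ hk => by simp [hk]) (by simp)]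
      simp only [if_true, mul_sum]
      exact sum_congr rfl fun l _ => by ring
    have hright : ∑ k, ∑ l, J k l * z k * (if l = i then a else 0) = a * N := by
      rw [← hJz, mul_sum]
      refine sum_congr rfl fun k _ => ?_
      rw [sum_eq_single i (fun l _ hl => by simp [hl]) (by simp), hJ.symm k i]
      simp only [if_true]; ring
    have hdiag : ∑ l, J i l * (if l = i then a else 0) = 0 := by simp [hJ.diag]
    simp only [hv, mul_add, add_mul, sum_add_distrib, hleft, hright, hJz, hdiag]
    ring
  have hq := hlo z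
  simp only [neg_mul, sum_neg_distrib, hzz] at hq
  rw [e1, e2] at h
  have ea : a * δ = N := div_mul_cancel₀ _ hδ.ne'
  have hN0 : 0 ≤ N := sum_nonneg fun j _ => sq_nonneg _
  have h3 : a * N ≤ (δ + L) * N := by nlinarith
  rcases hN0.eq_or_lt with h0 | hpos
  · rw [← h0]; positivity
  · have := le_of_mul_le_mul_right h3 hpos
    calc N = a * δ := ea.symm
      _ ≤ δ * (δ + L) := by rw [mul_comm a]; exact mul_le_mul_of_nonneg_left this hδ.le

/-- The constant of the endpoint inequality. -/
noncomputable def endCost (δ L R d H : ℝ) : ℝ :=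
  2 * δ + (L + 2 * L * (δ + L) / δ) * (1 / Real.cosh H ^ 2) +
    8 * (δ * (δ + L) + R * (1 / Real.cosh H ^ 2)) + 22 * d * R

lemma one_sub_mag_sq_le {J : Fin n → Fin n → ℝ} {h : Fin n → ℝ} {i : Fin n} {x : Conf n} {H : ℝ}
    (hH : 0 ≤ H) (hl : H ≤ |localField J h i x|) :
    1 - mag J h i x ^ 2 ≤ 1 / Real.cosh H ^ 2 := by
  have hc : Real.cosh H ≤ Real.cosh (localField J h i x) :=
    Real.cosh_le_cosh.2 (by rwa [abs_of_nonneg hH])
  have h0 := Real.cosh_pos (localField J h i x)
  have e : 1 - mag J h i x ^ 2 = 1 / Real.cosh (localField J h i x) ^ 2 := by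
    rw [mag, Real.tanh_eq_sinh_div_cosh, div_pow, eq_div_iff (pow_ne_zero 2 h0.ne'), sub_mul,
      div_mul_cancel₀ _ (pow_ne_zero 2 h0.ne'), one_mul]
    linarith [Real.cosh_sq_sub_sinh_sq (localField J h i x)]
  rw [e]
  have := Real.cosh_pos H
  gcongr

/-- **Endpoint Poincaré inequality**: if all but `η n / 4` external fields exceed `2 H`, the
heat-bath Poincaré constant is at most `1 / (1 - endCost)`. -/
theorem poincare_endpoint {J : Fin n → Fin n → ℝ} {η δ L R d H : ℝ} (hJ : IsCoupling J)
    (hL : 0 < L) (hδ : 0 < δ) (hH : 0 < H) (hup : QuadLe J L)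
    (hlo : QuadLe (fun i j => -J i j) L) (hsmall : SmallBlock J η δ)
    (hR : ∀ i, ∑ j, J i j ^ 2 ≤ R) (hd : ∀ i j, |J i j| ≤ d) (hd0 : d ≤ 1 / 20)
    (hηn : 4 ≤ η * n) (hηH : 2 * L ^ 2 ≤ η * H ^ 2) (hlt : endCost δ L R d H < 1)
    (h : Fin n → ℝ) (hfield : ((univ.filter fun i => |h i| < 2 * H).card : ℝ) ≤ η * n / 4)
    (f : Conf n → ℝ) : (1 - endCost δ L R d H) * var J h f ≤ dir J h f := by
  set ε := 1 / Real.cosh H ^ 2 with hε
  have hε0 : 0 ≤ ε := by positivity
  set S : Conf n → Finset (Fin n) := fun x => univ.filter fun i => |localField J h i x| < H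
  have hS : ∀ x, ((S x).card : ℝ) + 1 ≤ η * n := by
    intro x
    set A := univ.filter fun i => |h i| < 2 * H
    set B := univ.filter fun i => H ≤ |∑ j, J i j * spin x j|
    have hsub : S x ⊆ A ∪ B := fun i hi => by
      simp only [S, A, B, mem_filter, mem_univ, true_and, mem_union] at hi ⊢
      by_contra hc
      push Not at hc
      have := abs_sub_abs_le_abs_sub (h i) (-∑ j, J i j * spin x j)
      rw [abs_neg, sub_neg_eq_add] at this
      simp only [localField] at hi
      linarith [hc.1, hc.2]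
    have hB : (B.card : ℝ) * H ^ 2 ≤ L ^ 2 * n := by
      refine le_trans ?_ (sum_field_sq_le hL hJ hup hlo x)
      refine le_trans ?_ (sum_le_sum_of_subset_of_nonneg (subset_univ B) fun i _ _ => sq_nonneg _)
      rw [← nsmul_eq_mul]
      refine card_nsmul_le_sum _ _ _ fun i hi => ?_
      rw [← sq_abs (∑ j, J i j * spin x j)]
      exact pow_le_pow_left₀ hH.le (mem_filter.1 hi).2 2
    have hB2 : (B.card : ℝ) ≤ η * n / 2 := by
      have h2 := mul_le_mul_of_nonneg_right hηH (Nat.cast_nonneg (α := ℝ) n)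
      refine le_of_mul_le_mul_right (hB.trans ?_) (by positivity : (0:ℝ) < H ^ 2)
      linarith
    have hc : ((S x).card : ℝ) ≤ A.card + B.card := by
      exact_mod_cast (card_le_card hsub).trans (card_union_le A B)
    linarith
  have hw1 : ∀ x i, 1 - mag J h i x ^ 2 ≤ 1 := fun x i => by linarith [sq_nonneg (mag J h i x)]
  have hw0 : ∀ x i, 0 ≤ 1 - mag J h i x ^ 2 := fun x i => by linarith [mag_sq_lt J h i x]
  have hwS : ∀ x i, i ∉ S x → 1 - mag J h i x ^ 2 ≤ ε := fun x i hi =>
    one_sub_mag_sq_le hH.le (le_of_not_gt fun hc => hi (mem_filter.2 ⟨mem_univ i, hc⟩))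
  refine poincare_of_sq hJ h (sub_pos.2 hlt) (fun g => ?_) f
  refine le_trans (le_of_eq ?_) (ev_sq_ge_weight (lam := 2 * δ + (L + 2 * L * (δ + L) / δ) * ε)
    (r := δ * (δ + L) + R * ε) hJ hd hd0 hR h (fun x i => ?_) (fun x u => ?_) g)
  · simp only [endCost, ← hε]
  · calc ∑ j, J i j ^ 2 * (1 - mag J h j x ^ 2)
        ≤ ∑ j, ((if j ∈ S x then J i j ^ 2 else 0) + J i j ^ 2 * ε) := sum_le_sum fun j _ => by
          split_ifs with hj
          · exact le_add_of_le_of_nonneg (mul_le_of_le_one_right (sq_nonneg _) (hw1 x j))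
              (mul_nonneg (sq_nonneg _) hε0)
          · rw [zero_add]; exact mul_le_mul_of_nonneg_left (hwS x j hj) (sq_nonneg _)
      _ ≤ _ := by
          rw [sum_add_distrib, ← sum_mul, sum_ite_mem, univ_inter]
          exact add_le_add (sum_block_le hδ hJ hlo hL.le hsmall i _ (hS x))
            (mul_le_mul_of_nonneg_right (hR i) hε0)
  · set v := fun i => (1 - mag J h i x ^ 2) * u i with hv
    set a := fun i => if i ∈ S x then v i else 0 with ha
    set b := fun i => if i ∈ S x then 0 else v i with hb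
    set W := ∑ i, (1 - mag J h i x ^ 2) * u i ^ 2 with hW
    have hv2 : ∀ i, v i ^ 2 = (1 - mag J h i x ^ 2) * ((1 - mag J h i x ^ 2) * u i ^ 2) :=
      fun i => by simp only [hv]; ring
    have hwu : ∀ i, 0 ≤ (1 - mag J h i x ^ 2) * u i ^ 2 :=
      fun i => mul_nonneg (hw0 x i) (sq_nonneg _)
    have ha2 : ∑ i, a i ^ 2 ≤ W := sum_le_sum fun i _ => by
      simp only [ha]; split_ifs with hi
      · rw [hv2]; exact mul_le_of_le_one_left (hwu i) (hw1 x i)
      · simpa using hwu i
    have hb2 : ∑ i, b i ^ 2 ≤ ε * W := by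
      rw [hW, mul_sum]
      refine sum_le_sum fun i _ => ?_
      simp only [hb]; split_ifs with hi
      · simpa using mul_nonneg hε0 (hwu i)
      · rw [hv2]; exact mul_le_mul_of_nonneg_right (hwS x i hi) (hwu i)
    have hca : ((univ.filter fun i => a i ≠ 0).card : ℝ) ≤ η * n := by
      refine le_trans ?_ (le_trans (le_add_of_nonneg_right zero_le_one) (hS x))
      refine Nat.cast_le.2 (card_le_card fun i hi => ?_)
      by_contra hn'
      simp [ha, hn'] at hi
    have hs : ∑ i, ∑ j, J i j * v i * v j = (∑ i, ∑ j, J i j * a i * a j) +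
        (∑ i, ∑ j, J i j * b i * b j) + 2 * ∑ i, ∑ j, J i j * a i * b j := by
      have hs' : ∑ i, ∑ j, J i j * b i * a j = ∑ i, ∑ j, J i j * a i * b j := by
        rw [sum_comm]; exact sum_congr rfl fun i _ => sum_congr rfl fun j _ => by rw [hJ.symm]; ring
      have hvab : ∀ i, v i = a i + b i := fun i => by simp only [ha, hb]; split_ifs <;> simp
      simp only [hvab, mul_add, add_mul, sum_add_distrib, hs']
      ring
    have hLδ : 0 < δ + L := by linarith
    set s := Real.sqrt (δ / (δ + L)) with hsdef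
    have hs0 : 0 < s := Real.sqrt_pos.2 (div_pos hδ hLδ)
    have hs2 : s ^ 2 = δ / (δ + L) := Real.sq_sqrt (div_pos hδ hLδ).le
    have hc := bilin_le hJ hup hlo (fun i => s * a i) (fun i => b i / s)
    have ec : ∑ i, ∑ j, J i j * (s * a i) * (b j / s) = ∑ i, ∑ j, J i j * a i * b j :=
      sum_congr rfl fun i _ => sum_congr rfl fun j _ => by field_simp
    have e1 : ∑ i, (s * a i) ^ 2 = δ / (δ + L) * ∑ i, a i ^ 2 := by
      rw [mul_sum]; exact sum_congr rfl fun i _ => by rw [mul_pow, hs2]
    have e2 : ∑ i, (b i / s) ^ 2 = (δ + L) / δ * ∑ i, b i ^ 2 := by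
      rw [mul_sum]; exact sum_congr rfl fun i _ => by rw [div_pow, hs2]; field_simp
    rw [ec, e1, e2] at hc
    have h1 : δ / (δ + L) * L ≤ δ := by
      rw [div_mul_eq_mul_div, div_le_iff₀ hLδ]; nlinarith
    have hA := mul_le_mul_of_nonneg_left ha2 (by positivity : 0 ≤ δ + δ / (δ + L) * L)
    have hB := mul_le_mul_of_nonneg_left hb2 (by positivity : 0 ≤ L + (δ + L) / δ * L)
    have hC := mul_le_mul_of_nonneg_right h1 (sum_nonneg fun i _ => hwu i : 0 ≤ W)
    have hD : 0 ≤ L * (δ + L) / δ * ε * W := by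
      have : 0 ≤ W := sum_nonneg fun i _ => hwu i
      positivity
    have hq1 := hsmall a hca
    have hq2 := hup b
    show ∑ i, ∑ j, J i j * v i * v j ≤ _
    rw [hs]
    calc _ ≤ δ * ∑ i, a i ^ 2 + L * ∑ i, b i ^ 2 +
          L * (δ / (δ + L) * ∑ i, a i ^ 2 + (δ + L) / δ * ∑ i, b i ^ 2) :=
          add_le_add (add_le_add hq1 hq2) hc
      _ ≤ (2 * δ + (L + 2 * L * (δ + L) / δ) * ε) * W := by
          have e3 : 2 * L * (δ + L) / δ = 2 * ((δ + L) / δ * L) := by ring
          have e4 : L * (δ + L) / δ = (δ + L) / δ * L := by ring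
          rw [e3]; rw [e4] at hD
          linarith

end Vale.Agent.P150.Weak
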