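import Vale.Agent.P150.Weak.GaussPoinc

/-!
Integration by parts for polynomially bounded functions of Gaussians and the second moment of a
divergence `δX = Σ_i g_i X_i - D_i X_i`.
-/

open MeasureTheory ProbabilityTheory Real Finset
open scoped Classical NNReal ENNReal

namespace Vale.Agent.P150.Weak

variable {ι κ : Type*} [Fintype ι] [Fintype κ]

/-- Continuous with polynomial growth. -/
def Tame (f : (ι → ℝ) → ℝ) : Prop :=
  Continuous f ∧ ∃ C : ℝ, ∃ K : ℕ, ∀ g, |f g| ≤ C * (1 + ∑ i, |g i|) ^ K

namespace Tame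

variable {f h : (ι → ℝ) → ℝ}

lemma one_le (g : ι → ℝ) : (1:ℝ) ≤ 1 + ∑ i, |g i| :=
  le_add_of_nonneg_right (Finset.sum_nonneg fun i _ => abs_nonneg _)

lemma of_bounded (hc : Continuous f) {B : ℝ} (h : ∀ g, |f g| ≤ B) : Tame f :=
  ⟨hc, B, 0, fun g => by simpa using h g⟩

lemma const (c : ℝ) : Tame (fun _ : ι → ℝ => c) := of_bounded continuous_const fun _ => le_rfl

lemma coord (i : ι) : Tame (fun g : ι → ℝ => g i) :=
  ⟨continuous_apply i, 1, 1, fun g => by
    rw [one_mul, pow_one]
    exact (Finset.single_le_sum (f := fun j => |g j|) (fun j _ => abs_nonneg _)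
      (Finset.mem_univ i)).trans (le_add_of_nonneg_left zero_le_one)⟩

lemma add (hf : Tame f) (hh : Tame h) : Tame fun g => f g + h g := by
  obtain ⟨hfc, C, K, hC⟩ := hf
  obtain ⟨hhc, C', K', hC'⟩ := hh
  refine ⟨hfc.add hhc, |C| + |C'|, K + K', fun g => ?_⟩
  have h1 := one_le g
  calc |f g + h g| ≤ |f g| + |h g| := abs_add_le _ _
    _ ≤ |C| * (1 + ∑ i, |g i|) ^ (K + K') + |C'| * (1 + ∑ i, |g i|) ^ (K + K') := by
        refine add_le_add ((hC g).trans ?_) ((hC' g).trans ?_)
        · exact mul_le_mul (le_abs_self C) (pow_le_pow_right₀ h1 (by omega)) (by positivity)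
            (abs_nonneg _)
        · exact mul_le_mul (le_abs_self C') (pow_le_pow_right₀ h1 (by omega)) (by positivity)
            (abs_nonneg _)
    _ = _ := by ring

lemma mul (hf : Tame f) (hh : Tame h) : Tame fun g => f g * h g := by
  obtain ⟨hfc, C, K, hC⟩ := hf
  obtain ⟨hhc, C', K', hC'⟩ := hh
  refine ⟨hfc.mul hhc, C * C', K + K', fun g => ?_⟩
  rw [abs_mul, pow_add, mul_mul_mul_comm]
  exact mul_le_mul (hC g) (hC' g) (abs_nonneg _) ((abs_nonneg _).trans (hC g))

lemma neg (hf : Tame f) : Tame fun g => -f g := by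
  obtain ⟨hfc, C, K, hC⟩ := hf
  exact ⟨hfc.neg, C, K, fun g => by simpa using hC g⟩

lemma sub (hf : Tame f) (hh : Tame h) : Tame fun g => f g - h g := by
  simpa [sub_eq_add_neg] using hf.add hh.neg

lemma sum {α : Type*} {s : Finset α} {F : α → (ι → ℝ) → ℝ} (h : ∀ a ∈ s, Tame (F a)) :
    Tame fun g => ∑ a ∈ s, F a g := by
  induction s using Finset.induction with
  | empty => simpa using const (ι := ι) 0
  | @insert a s ha ih =>
    simp only [Finset.sum_insert ha]
    exact (h a (Finset.mem_insert_self a s)).add (ih fun b hb => h b (Finset.mem_insert_of_mem hb))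

lemma pow (hf : Tame f) (k : ℕ) : Tame fun g => f g ^ k := by
  induction k with
  | zero => simpa using const (ι := ι) 1
  | succ k ih => simpa [pow_succ] using ih.mul hf

lemma integrable (hf : Tame f) : Integrable f (gauss ι) := by
  obtain ⟨hfc, C, K, hC⟩ := hf
  have h0 : MemLp (id : ℝ → ℝ) (K : ℝ≥0∞) (gaussianReal 0 1) := by
    have := memLp_id_gaussianReal (μ := 0) (v := 1) (K : ℝ≥0)
    simpa using this
  have hL : ∀ i, MemLp (fun g : ι → ℝ => |g i|) (K : ℝ≥0∞) (gauss ι) := fun i => by
    have h2 : MemLp (fun g : ι → ℝ => g i) (K : ℝ≥0∞) (gauss ι) :=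
      h0.comp_measurePreserving (measurePreserving_eval (fun _ : ι => gaussianReal 0 1) i)
    exact h2.abs
  have h1 : MemLp (fun g : ι → ℝ => 1 + ∑ i, |g i|) (K : ℝ≥0∞) (gauss ι) :=
    MemLp.add (memLp_const 1) (memLp_finsetSum _ fun i _ => hL i)
  have h3 : Integrable (fun g : ι → ℝ => ‖(1:ℝ) + ∑ i, |g i|‖ ^ K) (gauss ι) :=
    h1.integrable_norm_pow'
  refine (h3.const_mul C).mono' hfc.aestronglyMeasurable (ae_of_all _ fun g => ?_)
  rw [norm_eq_abs, norm_eq_abs, abs_of_nonneg (zero_le_one.trans (one_le g))]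
  exact hC g

lemma memLp_two (hf : Tame f) : MemLp f 2 (gauss ι) :=
  (memLp_two_iff_integrable_sq hf.1.aestronglyMeasurable).2 (hf.pow 2).integrable

end Tame

/-- Gaussian integration by parts on the line, under integrability. -/
lemma ibp_line {f f' : ℝ → ℝ} (hd : ∀ t, HasDerivAt f (f' t) t)
    (h1 : Integrable f (gaussianReal 0 1)) (h2 : Integrable f' (gaussianReal 0 1))
    (h3 : Integrable (fun t => t * f t) (gaussianReal 0 1)) :
    ∫ t, t * f t ∂gaussianReal 0 1 = ∫ t, f' t ∂gaussianReal 0 1 := by
  have hv : ∀ {u : ℝ → ℝ}, Integrable u (gaussianReal 0 1) →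
      Integrable (fun t => u t * gaussianPDFReal 0 1 t) := by
    intro u hu
    rw [gaussianReal_of_var_ne_zero 0 one_ne_zero,
      integrable_withDensity_iff_integrable_smul' (measurable_gaussianPDF _ _)
        (ae_of_all _ fun x => ENNReal.ofReal_lt_top)] at hu
    refine hu.congr (ae_of_all _ fun x => ?_)
    simp [toReal_gaussianPDF, mul_comm]
  have h := integral_mul_deriv_eq_deriv_mul_of_integrable (u := f) (u' := f')
    (v := gaussianPDFReal 0 1) (v' := fun t => -(t * gaussianPDFReal 0 1 t))
    (fun x _ => hd x) (fun x _ => hasDerivAt_phi x)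
    ((hv h3).neg.congr (ae_of_all _ fun t => by
      simp only [Pi.neg_apply, Pi.mul_apply]; ring))
    (hv h2) (hv h1)
  rw [integral_gaussianReal_eq_integral_smul one_ne_zero,
    integral_gaussianReal_eq_integral_smul one_ne_zero]
  simp only [smul_eq_mul]
  have e : ∫ t, gaussianPDFReal 0 1 t * (t * f t) =
      -∫ t, f t * -(t * gaussianPDFReal 0 1 t) := by
    rw [← integral_neg]
    exact integral_congr_ae (ae_of_all _ fun t => by ring)
  rw [e, h, neg_neg]
  exact integral_congr_ae (ae_of_all _ fun t => by ring)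

/-- Integration by parts in the coordinate `i`. -/
theorem ibp {F D : (ι → ℝ) → ℝ} {i : ι} (hF : Tame F) (hD : Tame D)
    (hd : ∀ g t, HasDerivAt (fun s => F (Function.update g i s)) (D (Function.update g i t)) t) :
    ∫ g, g i * F g ∂gauss ι = ∫ g, D g ∂gauss ι := by
  have hgF := (Tame.coord i).mul hF
  rw [integral_gauss_update hgF.integrable i, integral_gauss_update hD.integrable i]
  have a1 := ((gauss_update i).integrable_comp_of_integrable hF.integrable).prod_right_ae
  have a2 := ((gauss_update i).integrable_comp_of_integrable hD.integrable).prod_right_ae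
  have a3 := ((gauss_update i).integrable_comp_of_integrable hgF.integrable).prod_right_ae
  refine integral_congr_ae ?_
  filter_upwards [a1, a2, a3] with g b1 b2 b3
  simp only [Function.comp_def, Function.update_self] at b1 b2 b3 ⊢
  exact ibp_line (hd g) b1 b2 b3

/-- The divergence. -/
noncomputable def dvg (X : ι → (ι → ℝ) → ℝ) (DX : ι → ι → (ι → ℝ) → ℝ) (g : ι → ℝ) : ℝ :=
  ∑ i, (g i * X i g - DX i i g)

/-- A divergence is centred, and `E(δX)² = E|X|² + E tr(DX DX)`; `DX j i` is `∂_j X_i` and
`DDX j k i` is `∂_j ∂_k X_i`. -/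
theorem dvg_sq {X : ι → (ι → ℝ) → ℝ} {DX : ι → ι → (ι → ℝ) → ℝ}
    {DDX : ι → ι → ι → (ι → ℝ) → ℝ} (hX : ∀ i, Tame (X i)) (hDX : ∀ j i, Tame (DX j i))
    (hDDX : ∀ j k i, Tame (DDX j k i))
    (hd : ∀ j i g t,
      HasDerivAt (fun s => X i (Function.update g j s)) (DX j i (Function.update g j t)) t)
    (hdd : ∀ j k i g t,
      HasDerivAt (fun s => DX k i (Function.update g j s)) (DDX j k i (Function.update g j t)) t)
    (hsymm : ∀ j k i g, DDX j k i g = DDX k j i g) :
    ∫ g, dvg X DX g ∂gauss ι = 0 ∧
      ∫ g, dvg X DX g ^ 2 ∂gauss ι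
        = ∫ g, (∑ i, X i g ^ 2 + ∑ i, ∑ j, DX j i g * DX i j g) ∂gauss ι := by
  have hgX : ∀ i, Tame fun g => g i * X i g := fun i => (Tame.coord i).mul (hX i)
  have hterm : ∀ i, Tame fun g => g i * X i g - DX i i g := fun i => (hgX i).sub (hDX i i)
  set S := dvg X DX with hS
  have hSt : Tame S := Tame.sum fun i _ => hterm i
  refine ⟨?_, ?_⟩
  · rw [hS]
    simp only [dvg]
    rw [integral_finsetSum _ fun i _ => (hterm i).integrable]
    refine Finset.sum_eq_zero fun i _ => ?_
    rw [integral_sub (hgX i).integrable (hDX i i).integrable,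
      ibp (hX i) (hDX i i) (hd i i), sub_self]
  -- pairing with `S`
  set DS : ι → (ι → ℝ) → ℝ := fun j g =>
    X j g + ∑ i, (g i * DX j i g - DDX j i i g) with hDS
  have hgDX : ∀ j i, Tame fun g => g i * DX j i g - DDX j i i g := fun j i =>
    ((Tame.coord i).mul (hDX j i)).sub (hDDX j i i)
  have hDSt : ∀ j, Tame (DS j) := fun j => (hX j).add (Tame.sum fun i _ => hgDX j i)
  have hdS : ∀ j g t,
      HasDerivAt (fun s => S (Function.update g j s)) (DS j (Function.update g j t)) t := by
    intro j g t
    refine (HasDerivAt.fun_sum fun i _ =>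
      ((hasDerivAt_pi.1 (hasDerivAt_update g j t) i).mul (hd j i g t)).sub
        (hdd j i i g t)).congr_deriv ?_
    simp only [hDS]
    rw [Finset.sum_congr rfl fun i _ =>
      show Pi.single (M := fun _ => ℝ) j (1:ℝ) i * X i (Function.update g j t) +
          Function.update g j t i * DX j i (Function.update g j t) -
          DDX j i i (Function.update g j t) =
        Pi.single (M := fun _ => ℝ) j (1:ℝ) i * X i (Function.update g j t) +
          (Function.update g j t i * DX j i (Function.update g j t) -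
            DDX j i i (Function.update g j t)) from by ring,
      Finset.sum_add_distrib]
    simp [Pi.single_apply]
  -- one summand
  have key : ∀ i, ∫ g, (g i * X i g - DX i i g) * S g ∂gauss ι = ∫ g, X i g * DS i g ∂gauss ι := by
    intro i
    have h := ibp (F := fun g => X i g * S g) (D := fun g => DX i i g * S g + X i g * DS i g) (i := i)
      ((hX i).mul hSt) (((hDX i i).mul hSt).add ((hX i).mul (hDSt i)))
      fun g t => (hd i i g t).mul (hdS i g t)
    have t1 := ((Tame.coord i).mul ((hX i).mul hSt)).integrable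
    have t2 := ((hDX i i).mul hSt).integrable
    have t3 := ((hX i).mul (hDSt i)).integrable
    have e : (fun g => (g i * X i g - DX i i g) * S g) =
        fun g => g i * (X i g * S g) - DX i i g * S g := funext fun g => by ring
    rw [e, integral_sub t1 t2, h, integral_add t2 t3]
    ring
  -- the cross term
  have cross : ∀ i j, ∫ g, X j g * (g i * DX j i g - DDX j i i g) ∂gauss ι
      = ∫ g, DX i j g * DX j i g ∂gauss ι := by
    intro i j
    have h := ibp (F := fun g => X j g * DX j i g)
      (D := fun g => DX i j g * DX j i g + X j g * DDX i j i g) (i := i)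
      ((hX j).mul (hDX j i)) (((hDX i j).mul (hDX j i)).add ((hX j).mul (hDDX i j i)))
      fun g t => (hd i j g t).mul (hdd i j i g t)
    have t1 := ((Tame.coord i).mul ((hX j).mul (hDX j i))).integrable
    have t2 := ((hDX i j).mul (hDX j i)).integrable
    have t3 := ((hX j).mul (hDDX i j i)).integrable
    have e : (fun g => X j g * (g i * DX j i g - DDX j i i g)) =
        fun g => g i * (X j g * DX j i g) - X j g * DDX i j i g := funext fun g => by
      rw [hsymm j i i g]; ring
    rw [e, integral_sub t1 t3, h, integral_add t2 t3]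
    ring
  have hsq : (fun g => S g ^ 2) = fun g => ∑ i, (g i * X i g - DX i i g) * S g := funext fun g => by
    rw [← Finset.sum_mul, sq]; rfl
  have i1 : ∀ i, Integrable (fun g => (g i * X i g - DX i i g) * S g) (gauss ι) := fun i =>
    ((hterm i).mul hSt).integrable
  have i2 : ∀ j i, Integrable (fun g => X j g * (g i * DX j i g - DDX j i i g)) (gauss ι) :=
    fun j i => ((hX j).mul (hgDX j i)).integrable
  have i3 : ∀ j i, Integrable (fun g => DX j i g * DX i j g) (gauss ι) := fun j i =>
    ((hDX j i).mul (hDX i j)).integrable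
  have i4 : ∀ i, Integrable (fun g => X i g ^ 2) (gauss ι) := fun i => ((hX i).pow 2).integrable
  rw [hsq, integral_finsetSum _ fun i _ => i1 i, Finset.sum_congr rfl fun i _ => key i,
    integral_add (integrable_finsetSum _ fun i _ => i4 i)
      (integrable_finsetSum _ fun i _ => integrable_finsetSum _ fun j _ => i3 j i),
    integral_finsetSum _ fun i _ => i4 i,
    integral_finsetSum _ fun i _ => integrable_finsetSum _ fun j _ => i3 j i,
    ← Finset.sum_add_distrib]
  refine Finset.sum_congr rfl fun j _ => ?_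
  rw [integral_finsetSum _ fun i _ => i3 i j]
  have e : (fun g => X j g * DS j g) =
      fun g => X j g ^ 2 + ∑ i, X j g * (g i * DX j i g - DDX j i i g) := funext fun g => by
    simp only [hDS, mul_add, Finset.mul_sum, sq]
  rw [e, integral_add (i4 j) (integrable_finsetSum _ fun i _ => i2 j i),
    integral_finsetSum _ fun i _ => i2 j i, Finset.sum_congr rfl fun i _ => cross i j]

end Vale.Agent.P150.Weak
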