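import Vale.Agent.P150.Weak.GaussPoinc

/-!
Moments of centred vector functions of Gaussians from the sharp Poincaré inequality alone:
`E|F|^{2q} ≤ C_q E‖DF‖^{2q}` for `q` a power of two.
-/

open MeasureTheory ProbabilityTheory Real Finset
open scoped Classical

namespace Vale.Agent.P150.Weak

variable {ι κ : Type*} [Fintype ι] [Fintype κ]

/-- The constant of the `2^k`-th moment. -/
noncomputable def momC : ℕ → ℝ
  | 0 => 1
  | k + 1 => 2 * momC k ^ 2 + (8 * (2 ^ k : ℝ) ^ 2) ^ (2 ^ (k + 1))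

lemma momC_nonneg : ∀ k, 0 ≤ momC k
  | 0 => zero_le_one
  | k + 1 => by
    have := momC_nonneg k
    simp only [momC]
    positivity

/-- `x^m a ≤ ε x^(m+1) + a^(m+1)/ε^m`. -/
lemma young_pow {x a ε : ℝ} (hx : 0 ≤ x) (ha : 0 ≤ a) (hε : 0 < ε) (m : ℕ) :
    x ^ m * a ≤ ε * x ^ (m + 1) + (ε⁻¹) ^ m * a ^ (m + 1) := by
  rcases le_total a (ε * x) with h | h
  · refine le_trans ?_ (le_add_of_nonneg_right (by positivity))
    calc x ^ m * a ≤ x ^ m * (ε * x) := mul_le_mul_of_nonneg_left h (by positivity)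
      _ = _ := by ring
  · refine le_trans ?_ (le_add_of_nonneg_left (by positivity))
    have : x ≤ ε⁻¹ * a := by rwa [inv_mul_eq_div, le_div_iff₀' hε]
    calc x ^ m * a ≤ (ε⁻¹ * a) ^ m * a :=
          mul_le_mul_of_nonneg_right (pow_le_pow_left₀ hx this m) ha
      _ = _ := by ring

variable {F : κ → (ι → ℝ) → ℝ} {D : ι → κ → (ι → ℝ) → ℝ}

lemma sum_dot_sq_le (g : ι → ℝ) :
    ∑ i, (∑ a, F a g * D i a g) ^ 2 ≤ (∑ a, F a g ^ 2) * ∑ a, ∑ i, D i a g ^ 2 := by
  rw [Finset.sum_comm (f := fun a i => D i a g ^ 2), Finset.mul_sum]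
  exact Finset.sum_le_sum fun i _ => Finset.sum_mul_sq_le_sq_mul_sq _ _ _

/-- **Moments**: for centred components, `∫ N^(2^k) ≤ momC k · ∫ A^(2^k)`. -/
theorem poincare_moment (hFc : ∀ a, Continuous (F a)) (hD : ∀ i a, Continuous (D i a))
    (hd : ∀ i a g t,
      HasDerivAt (fun s => F a (Function.update g i s)) (D i a (Function.update g i t)) t)
    (hm : ∀ a, ∫ g, F a g ∂gauss ι = 0) :
    ∀ k : ℕ, (∀ j ≤ k, Integrable (fun g => (∑ a, F a g ^ 2) ^ 2 ^ j) (gauss ι)) →
      (∀ j ≤ k, Integrable (fun g => (∑ a, ∑ i, D i a g ^ 2) ^ 2 ^ j) (gauss ι)) →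
      ∫ g, (∑ a, F a g ^ 2) ^ 2 ^ k ∂gauss ι ≤
        momC k * ∫ g, (∑ a, ∑ i, D i a g ^ 2) ^ 2 ^ k ∂gauss ι := by
  intro k
  have hNc : Continuous fun g => ∑ a, F a g ^ 2 := continuous_finsetSum _ fun a _ => (hFc a).pow 2
  have hAc : Continuous fun g => ∑ a, ∑ i, D i a g ^ 2 :=
    continuous_finsetSum _ fun a _ => continuous_finsetSum _ fun i _ => (hD i a).pow 2
  have hN0 : ∀ g, 0 ≤ ∑ a, F a g ^ 2 := fun g => Finset.sum_nonneg fun a _ => sq_nonneg _
  have hA0 : ∀ g, 0 ≤ ∑ a, ∑ i, D i a g ^ 2 := fun g =>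
    Finset.sum_nonneg fun a _ => Finset.sum_nonneg fun i _ => sq_nonneg _
  induction k with
  | zero =>
    intro hiN hiA
    have h1 := hiN 0 le_rfl
    have h2 := hiA 0 le_rfl
    simp only [pow_zero, pow_one, momC, one_mul] at h1 h2 ⊢
    have hF : ∀ a, MemLp (F a) 2 (gauss ι) := fun a =>
      (memLp_two_iff_integrable_sq (hFc a).aestronglyMeasurable).2
        (h1.mono' ((hFc a).pow 2).aestronglyMeasurable (ae_of_all _ fun g => by
          rw [norm_eq_abs, abs_of_nonneg (sq_nonneg _)]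
          exact Finset.single_le_sum (f := fun b => F b g ^ 2) (fun b _ => sq_nonneg _)
            (Finset.mem_univ a)))
    have hi : ∀ i a, Integrable (fun g => D i a g ^ 2) (gauss ι) := fun i a =>
      h2.mono' ((hD i a).pow 2).aestronglyMeasurable (ae_of_all _ fun g => by
        rw [norm_eq_abs, abs_of_nonneg (sq_nonneg _)]
        exact le_trans (Finset.single_le_sum (f := fun j => D j a g ^ 2) (fun j _ => sq_nonneg _)
          (Finset.mem_univ i)) (Finset.single_le_sum (f := fun b => ∑ j, D j b g ^ 2)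
            (fun b _ => Finset.sum_nonneg fun j _ => sq_nonneg _) (Finset.mem_univ a)))
    refine (poincare_vec hFc hF hD hd hi).trans_eq ?_
    simp [hm]
  | succ k ih =>
    intro hiN hiA
    have IH := ih (fun j hj => hiN j (hj.trans k.le_succ)) fun j hj => hiA j (hj.trans k.le_succ)
    set q := 2 ^ k with hq
    obtain ⟨m, hm'⟩ : ∃ m, 2 ^ (k + 1) = m + 1 := ⟨2 ^ (k + 1) - 1, by
      have := Nat.one_le_two_pow (n := k + 1); omega⟩
    have hq1 : 1 ≤ q := Nat.one_le_two_pow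
    have h2q : 2 ^ (k + 1) = 2 * q := by rw [hq, pow_succ, mul_comm]
    have hm2 : m = 2 * (q - 1) + 1 := by omega
    set c : ℝ := 8 * (q : ℝ) ^ 2 with hc
    have hc0 : 0 < c := by positivity
    have iN := hiN (k + 1) le_rfl
    have iA := hiA (k + 1) le_rfl
    rw [hm'] at iN iA ⊢
    -- the bound on the gradient of `N^q`
    set G : ι → (ι → ℝ) → ℝ := fun i g =>
      2 * (q : ℝ) * (∑ a, F a g ^ 2) ^ (q - 1) * ∑ a, F a g * D i a g with hG
    have hGc : ∀ i, Continuous (G i) := fun i =>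
      (continuous_const.mul (hNc.pow _)).mul
        (continuous_finsetSum _ fun a _ => (hFc a).mul (hD i a))
    have hpt : ∀ g, ∑ i, G i g ^ 2 ≤ (∑ a, F a g ^ 2) ^ (m + 1) / 2 +
        c ^ (m + 1) / 2 * (∑ a, ∑ i, D i a g ^ 2) ^ (m + 1) := fun g => by
      have e : ∑ i, G i g ^ 2 = c / 2 * (∑ a, F a g ^ 2) ^ (2 * (q - 1)) *
          ∑ i, (∑ a, F a g * D i a g) ^ 2 := by
        rw [Finset.mul_sum]
        refine Finset.sum_congr rfl fun i _ => ?_
        simp only [hG, hc, mul_pow, ← pow_mul, mul_comm (q - 1) 2]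
        ring
      have h := young_pow (hN0 g) (hA0 g) (inv_pos.2 hc0) m
      rw [inv_inv] at h
      have hle : ∑ i, G i g ^ 2 ≤ c / 2 * ((∑ a, F a g ^ 2) ^ m * ∑ a, ∑ i, D i a g ^ 2) := by
        rw [e, mul_assoc, hm2, pow_succ]
        refine mul_le_mul_of_nonneg_left ?_ (by positivity)
        rw [mul_assoc]
        exact mul_le_mul_of_nonneg_left (sum_dot_sq_le g) (pow_nonneg (hN0 g) _)
      refine hle.trans ((mul_le_mul_of_nonneg_left h (by positivity)).trans_eq ?_)
      field_simp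
      ring
    have iR : Integrable (fun g => (∑ a, F a g ^ 2) ^ (m + 1) / 2 +
        c ^ (m + 1) / 2 * (∑ a, ∑ i, D i a g ^ 2) ^ (m + 1)) (gauss ι) :=
      (iN.div_const 2).add (iA.const_mul _)
    have iG : ∀ i, Integrable (fun g => G i g ^ 2) (gauss ι) := fun i =>
      iR.mono' ((hGc i).pow 2).aestronglyMeasurable (ae_of_all _ fun g => by
        rw [norm_eq_abs, abs_of_nonneg (sq_nonneg _)]
        exact le_trans (Finset.single_le_sum (f := fun j => G j g ^ 2) (fun j _ => sq_nonneg _)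
          (Finset.mem_univ i)) (hpt g))
    have hsq : ∀ x : ℝ, (x ^ q) ^ 2 = x ^ (m + 1) := fun x => by
      rw [← pow_mul, ← hm', h2q, mul_comm]
    have hL : MemLp (fun g => (∑ a, F a g ^ 2) ^ q) 2 (gauss ι) :=
      (memLp_two_iff_integrable_sq (hNc.pow q).aestronglyMeasurable).2
        (iN.congr (ae_of_all _ fun g => (hsq _).symm))
    have hP := poincare (D := G) (hNc.pow q) hL hGc (fun i g t => by
      refine ((HasDerivAt.fun_sum fun a _ => (hd i a g t).pow 2).pow q).congr_deriv ?_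
      simp only [hG, Finset.mul_sum]
      refine Finset.sum_congr rfl fun a _ => ?_
      simp only [Pi.pow_apply, Nat.cast_ofNat]
      ring) iG
    simp only [Pi.pow_apply, hsq] at hP
    have hint := integral_mono (integrable_finsetSum _ fun i _ => iG i) iR hpt
    rw [integral_add (iN.div_const 2) (iA.const_mul _), integral_div, integral_const_mul] at hint
    have hJ : (∫ g, (∑ a, ∑ i, D i a g ^ 2) ^ q ∂gauss ι) ^ 2 ≤
        ∫ g, (∑ a, ∑ i, D i a g ^ 2) ^ (m + 1) ∂gauss ι := by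
      set μA := ∫ g, (∑ a, ∑ i, D i a g ^ 2) ^ q ∂gauss ι with hμ
      have i1 : Integrable (fun g => (∑ a, ∑ i, D i a g ^ 2) ^ q) (gauss ι) := hiA k k.le_succ
      have h0 := integral_nonneg (μ := gauss ι)
        (f := fun g => ((∑ a, ∑ i, D i a g ^ 2) ^ q - μA) ^ 2) fun g => sq_nonneg _
      have e : (fun g : ι → ℝ => ((∑ a, ∑ i, D i a g ^ 2) ^ q - μA) ^ 2) = fun g =>
          (∑ a, ∑ i, D i a g ^ 2) ^ (m + 1) +
            (-(2 * μA) * (∑ a, ∑ i, D i a g ^ 2) ^ q + μA ^ 2) :=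
        funext fun g => by rw [sub_sq, hsq]; ring
      have i2 : Integrable (fun g => -(2 * μA) * (∑ a, ∑ i, D i a g ^ 2) ^ q + μA ^ 2) (gauss ι) :=
        (i1.const_mul _).add (integrable_const _)
      rw [e, integral_add iA i2, integral_add (i1.const_mul _) (integrable_const _),
        integral_const_mul, integral_const, probReal_univ, one_smul, ← hμ] at h0
      linarith
    have h1 : 0 ≤ ∫ g, (∑ a, F a g ^ 2) ^ q ∂gauss ι :=
      integral_nonneg fun g => pow_nonneg (hN0 g) _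
    have h2 := pow_le_pow_left₀ h1 IH 2
    rw [mul_pow] at h2
    have h3 := mul_le_mul_of_nonneg_left hJ (sq_nonneg (momC k))
    have hCk : momC (k + 1) = 2 * momC k ^ 2 + c ^ (m + 1) := by
      simp [momC, hc, hq, hm']
    rw [hCk, add_mul]
    linarith

end Vale.Agent.P150.Weak
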