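import Vale.Agent.P150.Interp

/-!
The Gaussian Poincaré inequality with its sharp constant, for functions on `ι → ℝ` with a
derivative along every coordinate, and its vector consequences.

The one-dimensional inequality follows from Cauchy–Schwarz on `f x - f y = ∫ f'` and the
identity `E[(X - Y); Y < s ≤ X] = φ(s)`; the dimension is removed by the Efron–Stein inequality.
-/

open MeasureTheory ProbabilityTheory Filter Real Finset
open scoped Topology NNReal ENNReal

namespace Vale.Agent.P150.Weak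

variable {ι κ : Type*} [Fintype ι] [Fintype κ]


lemma hasDerivAt_phi (x : ℝ) : HasDerivAt (gaussianPDFReal 0 1) (-(x * gaussianPDFReal 0 1 x)) x := by
  have h : (gaussianPDFReal 0 1) = fun x : ℝ => (√(2 * π * (1 : ℝ≥0)))⁻¹ * exp (-(x - 0) ^ 2 / (2 * (1 : ℝ≥0))) := by
    funext x; simp [gaussianPDFReal]
  rw [h]
  have h1 := (((((hasDerivAt_id x).sub_const 0).pow 2).neg).div_const (2 * ((1 : ℝ≥0) : ℝ))).exp
  refine (h1.const_mul _).congr_deriv ?_
  simp
  ring

lemma integrable_id_mul_phi : Integrable (fun x : ℝ => x * gaussianPDFReal 0 1 x) := by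
  have h : Integrable (fun x : ℝ => x) (gaussianReal 0 1) :=
    (memLp_id_gaussianReal 1).integrable le_rfl
  rw [gaussianReal_of_var_ne_zero 0 one_ne_zero] at h
  rw [integrable_withDensity_iff_integrable_smul' (measurable_gaussianPDF _ _)
    (ae_of_all _ fun x => ENNReal.ofReal_lt_top)] at h
  refine h.congr (ae_of_all _ fun x => ?_)
  simp [toReal_gaussianPDF, mul_comm]

lemma phi_tendsto_atTop : Tendsto (gaussianPDFReal 0 1) atTop (𝓝 0) := by
  have hq : Tendsto (fun x : ℝ => exp (-(x ^ 2 / 2))) atTop (𝓝 0) :=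
    tendsto_exp_neg_atTop_nhds_zero.comp
      ((tendsto_pow_atTop two_ne_zero).atTop_div_const (by norm_num))
  have := hq.const_mul ((√(2 * π))⁻¹)
  rw [mul_zero] at this
  refine this.congr fun x => ?_
  simp [gaussianPDFReal, neg_div]

/-- `E[X; s < X] = φ(s)`. -/
lemma integral_Ioi_id_mul_phi (s : ℝ) : ∫ x in Set.Ioi s, x * gaussianPDFReal 0 1 x = gaussianPDFReal 0 1 s := by
  have hd : ∀ x ∈ Set.Ici s, HasDerivAt (fun x => -gaussianPDFReal 0 1 x) (x * gaussianPDFReal 0 1 x) x := fun x _ => by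
    simpa [Pi.neg_def] using (hasDerivAt_phi x).neg
  have := integral_Ioi_of_hasDerivAt_of_tendsto' hd integrable_id_mul_phi.integrableOn
    (by simpa using phi_tendsto_atTop.neg : Tendsto (fun x => -gaussianPDFReal 0 1 x) atTop (𝓝 0))
  simpa using this

/-- `E[X; s ≤ X] = φ(s)`. -/
lemma setIntegral_Ici_gauss (s : ℝ) : ∫ x in Set.Ici s, x ∂gaussianReal 0 1 = gaussianPDFReal 0 1 s := by
  have : ∫ x in Set.Ici s, x ∂gaussianReal 0 1
      = ∫ x, (Set.Ici s).indicator (fun x : ℝ => x) x ∂gaussianReal 0 1 :=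
    (integral_indicator measurableSet_Ici).symm
  rw [this, integral_gaussianReal_eq_integral_smul one_ne_zero, ← integral_Ioi_id_mul_phi s,
    ← integral_Ici_eq_integral_Ioi, ← integral_indicator measurableSet_Ici]
  refine integral_congr_ae (ae_of_all _ fun x => ?_)
  by_cases h : x ∈ Set.Ici s <;> simp [h, mul_comm]

/-- `E[(X - Y); Y < s ≤ X] = φ(s)`. -/
lemma lintegral_cross (s : ℝ) :
    ∫⁻ x, ∫⁻ y, (Set.Ici s).indicator 1 x * (Set.Iio s).indicator 1 y * ENNReal.ofReal (x - y)
        ∂gaussianReal 0 1 ∂gaussianReal 0 1 = ENNReal.ofReal (gaussianPDFReal 0 1 s) := by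
  set ν := gaussianReal 0 1
  have hν : Integrable (fun t : ℝ => t) ν := (memLp_id_gaussianReal 1).integrable le_rfl
  set f : ℝ × ℝ → ℝ := fun q =>
    (Set.Ici s).indicator (fun x => x) q.1 * (Set.Iio s).indicator 1 q.2 -
      (Set.Ici s).indicator 1 q.1 * (Set.Iio s).indicator (fun y => y) q.2 with hf
  have h0 : ∀ q : ℝ × ℝ, (Set.Ici s).indicator 1 q.1 * (Set.Iio s).indicator 1 q.2 *
      ENNReal.ofReal (q.1 - q.2) = ENNReal.ofReal (f q) := fun q => by
    by_cases h1 : q.1 ∈ Set.Ici s <;> by_cases h2 : q.2 ∈ Set.Iio s <;> simp [hf, h1, h2]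
  have hnn : ∀ q, 0 ≤ f q := fun q => by
    by_cases h1 : q.1 ∈ Set.Ici s <;> by_cases h2 : q.2 ∈ Set.Iio s <;> simp [hf, h1, h2]
    linarith [Set.mem_Ici.1 h1, Set.mem_Iio.1 h2]
  have i1 : Integrable (fun q : ℝ × ℝ =>
      (Set.Ici s).indicator (fun x => x) q.1 * (Set.Iio s).indicator (1 : ℝ → ℝ) q.2) (ν.prod ν) :=
    (hν.indicator measurableSet_Ici).mul_prod ((integrable_const 1).indicator measurableSet_Iio)
  have i2 : Integrable (fun q : ℝ × ℝ =>
      (Set.Ici s).indicator (1 : ℝ → ℝ) q.1 * (Set.Iio s).indicator (fun y => y) q.2) (ν.prod ν) :=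
    ((integrable_const 1).indicator measurableSet_Ici).mul_prod (hν.indicator measurableSet_Iio)
  have hfi : Integrable f (ν.prod ν) := i1.sub i2
  calc _ = ∫⁻ x, ∫⁻ y, ENNReal.ofReal (f (x, y)) ∂ν ∂ν :=
        lintegral_congr fun x => lintegral_congr fun y => h0 (x, y)
    _ = ∫⁻ q, ENNReal.ofReal (f q) ∂ν.prod ν :=
        (lintegral_prod _ hfi.aestronglyMeasurable.aemeasurable.ennreal_ofReal).symm
    _ = ENNReal.ofReal (∫ q, f q ∂ν.prod ν) :=
        (ofReal_integral_eq_lintegral_ofReal hfi (ae_of_all _ hnn)).symm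
    _ = _ := by
      congr 1
      rw [hf, integral_sub i1 i2,
        integral_prod_mul ((Set.Ici s).indicator fun x : ℝ => x) ((Set.Iio s).indicator 1),
        integral_prod_mul ((Set.Ici s).indicator 1) ((Set.Iio s).indicator fun y : ℝ => y),
        integral_indicator_one measurableSet_Ici, integral_indicator_one measurableSet_Iio,
        integral_indicator measurableSet_Ici, integral_indicator measurableSet_Iio,
        setIntegral_Ici_gauss]
      have hc : ∫ y in Set.Iio s, y ∂ν = -gaussianPDFReal 0 1 s := by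
        have h := integral_add_compl (μ := ν) (measurableSet_Ici (a := s)) hν
        rw [Set.compl_Ici, setIntegral_Ici_gauss, integral_id_gaussianReal] at h
        linarith
      have hm : ν.real (Set.Ici s) + ν.real (Set.Iio s) = 1 := by
        rw [← Set.compl_Ici, measureReal_add_measureReal_compl measurableSet_Ici, probReal_univ]
      rw [hc]
      linear_combination gaussianPDFReal 0 1 s * hm

/-- Cauchy–Schwarz for the fundamental theorem of calculus. -/
lemma sq_sub_le {f f' : ℝ → ℝ} (hd : ∀ t, HasDerivAt f (f' t) t) (hc : Continuous f') {x y : ℝ}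
    (h : y < x) : (f x - f y) ^ 2 ≤ (x - y) * ∫ t in Set.Ioc y x, f' t ^ 2 := by
  set c := (f x - f y) / (x - y) with hcd
  have hftc : ∫ t in y..x, f' t = f x - f y :=
    intervalIntegral.integral_eq_sub_of_hasDerivAt (fun t _ => hd t) (hc.intervalIntegrable _ _)
  have h0 : 0 ≤ ∫ t in y..x, (f' t - c) ^ 2 :=
    intervalIntegral.integral_nonneg h.le fun t _ => sq_nonneg _
  have e : (fun t => (f' t - c) ^ 2) = fun t => f' t ^ 2 - 2 * c * f' t + c ^ 2 :=
    funext fun t => by ring
  have i1 : IntervalIntegrable (fun t => f' t ^ 2) volume y x :=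
    (hc.pow 2).intervalIntegrable _ _
  have i2 : IntervalIntegrable (fun t => 2 * c * f' t) volume y x :=
    (continuous_const.mul hc).intervalIntegrable _ _
  rw [e, intervalIntegral.integral_add (i1.sub i2) intervalIntegrable_const,
    intervalIntegral.integral_sub i1 i2, intervalIntegral.integral_const_mul, hftc,
    intervalIntegral.integral_const, intervalIntegral.integral_of_le h.le, smul_eq_mul] at h0
  have hxy : 0 < x - y := sub_pos.2 h
  have hc2 : c * (x - y) = f x - f y := div_mul_cancel₀ _ hxy.ne'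
  nlinarith [mul_nonneg hxy.le h0]

/-- The sharp one-dimensional inequality, as a double integral. -/
theorem lintegral_sq_sub_le {f f' : ℝ → ℝ} (hd : ∀ t, HasDerivAt f (f' t) t) (hc : Continuous f') :
    ∫⁻ x, ∫⁻ y, ENNReal.ofReal ((f x - f y) ^ 2) ∂gaussianReal 0 1 ∂gaussianReal 0 1
      ≤ 2 * ∫⁻ t, ENNReal.ofReal (f' t ^ 2) ∂gaussianReal 0 1 := by
  set ν := gaussianReal 0 1
  have hf : Continuous f := continuous_iff_continuousAt.2 fun t => (hd t).continuousAt
  set K : ℝ → ℝ → ℝ → ℝ≥0∞ := fun x y s =>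
    (Set.Ici s).indicator 1 x * (Set.Iio s).indicator 1 y * ENNReal.ofReal (x - y) *
      ENNReal.ofReal (f' s ^ 2) with hK
  have hKm : Measurable fun q : (ℝ × ℝ) × ℝ => K q.1.1 q.1.2 q.2 := by
    have a1 : MeasurableSet {q : (ℝ × ℝ) × ℝ | q.2 ≤ q.1.1} :=
      measurableSet_le measurable_snd (measurable_fst.comp measurable_fst)
    have a2 : MeasurableSet {q : (ℝ × ℝ) × ℝ | q.1.2 < q.2} :=
      measurableSet_lt (measurable_snd.comp measurable_fst) measurable_snd
    have e1 : (fun q : (ℝ × ℝ) × ℝ => (Set.Ici q.2).indicator (1 : ℝ → ℝ≥0∞) q.1.1) =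
        {q : (ℝ × ℝ) × ℝ | q.2 ≤ q.1.1}.indicator 1 := by
      funext q; simp [Set.indicator]
    have e2 : (fun q : (ℝ × ℝ) × ℝ => (Set.Iio q.2).indicator (1 : ℝ → ℝ≥0∞) q.1.2) =
        {q : (ℝ × ℝ) × ℝ | q.1.2 < q.2}.indicator 1 := by
      funext q; simp [Set.indicator]
    refine ((Measurable.mul ?_ ?_).mul (by fun_prop)).mul (by fun_prop)
    · rw [e1]; exact measurable_one.indicator a1
    · rw [e2]; exact measurable_one.indicator a2
  have hpt : ∀ x y, ENNReal.ofReal ((f x - f y) ^ 2) ≤ (∫⁻ s, K x y s) + ∫⁻ s, K y x s := by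
    have key : ∀ x y, y < x → ENNReal.ofReal ((f x - f y) ^ 2) ≤ ∫⁻ s, K x y s := by
      intro x y h
      refine (ENNReal.ofReal_le_ofReal (sq_sub_le hd hc h)).trans (le_of_eq ?_)
      have hi : IntegrableOn (fun t => f' t ^ 2) (Set.Ioc y x) := (hc.pow 2).integrableOn_Ioc
      rw [ENNReal.ofReal_mul (sub_pos.2 h).le, ofReal_integral_eq_lintegral_ofReal hi
        (ae_of_all _ fun t => sq_nonneg _),
        ← lintegral_indicator measurableSet_Ioc, ← lintegral_const_mul' _ _ ENNReal.ofReal_ne_top]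
      refine lintegral_congr fun s => ?_
      by_cases h1 : s ≤ x <;> by_cases h2 : y < s <;> simp [hK, h1, h2, Set.indicator]
    intro x y
    rcases lt_trichotomy y x with h | h | h
    · exact (key x y h).trans le_self_add
    · simp [h]
    · rw [show (f x - f y) ^ 2 = (f y - f x) ^ 2 by ring]
      exact (key y x h).trans le_add_self
  have hmk : Measurable fun q : ℝ × ℝ => ∫⁻ s, K q.1 q.2 s := hKm.lintegral_prod_right'
  have hhalf : ∫⁻ q, ∫⁻ s, K q.1 q.2 s ∂volume ∂ν.prod ν = ∫⁻ t, ENNReal.ofReal (f' t ^ 2) ∂ν := by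
    rw [lintegral_lintegral_swap hKm.aemeasurable]
    have hs : ∀ s, ∫⁻ q : ℝ × ℝ, K q.1 q.2 s ∂ν.prod ν
        = ENNReal.ofReal (gaussianPDFReal 0 1 s) * ENNReal.ofReal (f' s ^ 2) := fun s => by
      have hm : Measurable fun q : ℝ × ℝ => K q.1 q.2 s := by
        have := hKm.comp (measurable_id.prodMk (measurable_const (a := s)) :
          Measurable fun q : ℝ × ℝ => (q, s))
        exact this
      rw [lintegral_prod _ hm.aemeasurable]
      simp only [hK, lintegral_mul_const' _ _ ENNReal.ofReal_ne_top]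
      rw [lintegral_cross]
    simp only [hs]
    rw [show ν = _ from gaussianReal_of_var_ne_zero 0 one_ne_zero,
      lintegral_withDensity_eq_lintegral_mul _ (measurable_gaussianPDF _ _) (by fun_prop)]
    rfl
  have hsw : ∫⁻ q : ℝ × ℝ, ∫⁻ s, K q.2 q.1 s ∂volume ∂ν.prod ν
      = ∫⁻ q : ℝ × ℝ, ∫⁻ s, K q.1 q.2 s ∂volume ∂ν.prod ν := lintegral_prod_swap fun q : ℝ × ℝ => ∫⁻ s, K q.1 q.2 s
  rw [← lintegral_prod (fun q : ℝ × ℝ => ENNReal.ofReal ((f q.1 - f q.2) ^ 2)) (by fun_prop)]
  refine (lintegral_mono fun q : ℝ × ℝ => hpt q.1 q.2).trans_eq ?_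
  rw [lintegral_add_left hmk, hsw, hhalf, two_mul]

/-! ### Efron–Stein -/

section mix

open scoped Classical

/-- Resample the coordinates in `S` from the second copy. -/
noncomputable def mix (S : Finset ι) (z : ι ⊕ ι → ℝ) (i : ι) : ℝ :=
  if i ∈ S then z (Sum.inr i) else z (Sum.inl i)

/-- Exchange the two copies on `S`. -/
noncomputable def swp (S : Finset ι) : ι ⊕ ι ≃ ι ⊕ ι where
  toFun := Sum.elim (fun i => if i ∈ S then Sum.inr i else Sum.inl i)
    (fun i => if i ∈ S then Sum.inl i else Sum.inr i)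
  invFun := Sum.elim (fun i => if i ∈ S then Sum.inr i else Sum.inl i)
    (fun i => if i ∈ S then Sum.inl i else Sum.inr i)
  left_inv := by rintro (i | i) <;> by_cases h : i ∈ S <;> simp [h]
  right_inv := by rintro (i | i) <;> by_cases h : i ∈ S <;> simp [h]

omit [Fintype ι] in
lemma mix_swp (S T : Finset ι) (z : ι ⊕ ι → ℝ) :
    mix T (fun a => z (swp S a)) = mix (symmDiff S T) z := by
  funext i
  by_cases hS : i ∈ S <;> by_cases hT : i ∈ T <;>
    simp [mix, swp, Finset.mem_symmDiff, hS, hT]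

lemma gauss_swp (S : Finset ι) :
    MeasurePreserving (fun z : ι ⊕ ι → ℝ => fun a => z (swp S a)) (gauss (ι ⊕ ι))
      (gauss (ι ⊕ ι)) := gauss_reindex (swp S)

lemma gauss_mix (S : Finset ι) :
    MeasurePreserving (mix S) (gauss (ι ⊕ ι)) (gauss ι) := by
  have h := (gauss_inl (ι := ι) (κ := ι)).comp (gauss_swp S)
  convert h using 1
  funext z i
  by_cases hS : i ∈ S <;> simp [mix, swp, hS]

variable {F : (ι → ℝ) → ℝ}

lemma memLp_mix (hF : MemLp F 2 (gauss ι)) (S : Finset ι) :
    MemLp (fun z => F (mix S z)) 2 (gauss (ι ⊕ ι)) :=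
  hF.comp_measurePreserving (gauss_mix S)

/-- Half the mean squared increment along coordinate `i`. -/
noncomputable def jump (F : (ι → ℝ) → ℝ) (i : ι) : ℝ :=
  (∫ z, (F (mix ∅ z) - F (mix {i} z)) ^ 2 ∂gauss (ι ⊕ ι)) / 2

lemma efron_aux (hF : MemLp F 2 (gauss ι)) (S : Finset ι) :
    ∫ z, F (mix ∅ z) * (F (mix ∅ z) - F (mix S z)) ∂gauss (ι ⊕ ι) ≤ ∑ i ∈ S, jump F i := by
  have hm := memLp_mix hF
  induction S using Finset.induction with
  | empty => simp
  | @insert k S hk ih =>
    rw [Finset.sum_insert hk]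
    set P := gauss (ι ⊕ ι)
    set a := fun z => F (mix ∅ z) - F (mix {k} z) with ha
    set b := fun z => F (mix S z) - F (mix (insert k S) z) with hb
    have La : MemLp a 2 P := (hm ∅).sub (hm {k})
    have Lb : MemLp b 2 P := (hm S).sub (hm (insert k S))
    have ea : ∀ T, MemLp (fun z => F (mix ∅ z) - F (mix T z)) 2 P := fun T => (hm ∅).sub (hm T)
    have i1 := (ea S).integrable_mul (hm ∅)
    have i2 := Lb.integrable_mul (hm ∅)
    have hsplit : ∫ z, F (mix ∅ z) * (F (mix ∅ z) - F (mix (insert k S) z)) ∂P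
        = (∫ z, F (mix ∅ z) * (F (mix ∅ z) - F (mix S z)) ∂P) + ∫ z, F (mix ∅ z) * b z ∂P := by
      rw [← integral_add (i1.congr (ae_of_all _ fun z => mul_comm _ _))
        (i2.congr (ae_of_all _ fun z => mul_comm _ _))]
      refine integral_congr_ae (ae_of_all _ fun z => ?_)
      simp only [hb]
      ring
    have hswap : ∫ z, F (mix ∅ z) * b z ∂P = -∫ z, F (mix {k} z) * b z ∂P := by
      have e1 : symmDiff {k} S = insert k S := by
        ext j; by_cases h : j = k <;> simp [Finset.mem_symmDiff, h, hk]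
      have e2 : symmDiff {k} (insert k S) = S := by
        ext j; by_cases h : j = k <;> simp [Finset.mem_symmDiff, h, hk]
      rw [← integral_neg]
      have hmeas : AEStronglyMeasurable (fun z => F (mix ∅ z) * b z) P :=
        (hm ∅).aestronglyMeasurable.mul Lb.aestronglyMeasurable
      refine (integral_comp_mp (gauss_swp {k}) hmeas).symm.trans ?_
      refine integral_congr_ae (ae_of_all _ fun z => ?_)
      simp only [hb, mix_swp, e1, e2, symmDiff_bot, ← Finset.bot_eq_empty]
      ring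
    have hb2 : ∫ z, b z ^ 2 ∂P = ∫ z, a z ^ 2 ∂P := by
      have e1 : symmDiff S ∅ = S := by simp
      have e2 : symmDiff S {k} = insert k S := by
        ext j; by_cases h : j = k <;> simp [Finset.mem_symmDiff, h, hk]
      have hmeas : AEStronglyMeasurable (fun z => a z ^ 2) P := La.aestronglyMeasurable.pow 2
      refine Eq.trans ?_ (integral_comp_mp (gauss_swp S) hmeas)
      refine integral_congr_ae (ae_of_all _ fun z => ?_)
      simp only [ha, hb, mix_swp, e1, e2]
    have hab : ∫ z, F (mix ∅ z) * b z ∂P ≤ jump F k := by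
      have i3 := Lb.integrable_mul (hm {k})
      have hd : ∫ z, a z * b z ∂P = 2 * ∫ z, F (mix ∅ z) * b z ∂P := by
        have : ∫ z, a z * b z ∂P
            = (∫ z, F (mix ∅ z) * b z ∂P) - ∫ z, F (mix {k} z) * b z ∂P := by
          rw [← integral_sub (i2.congr (ae_of_all _ fun z => mul_comm _ _))
            (i3.congr (ae_of_all _ fun z => mul_comm _ _))]
          refine integral_congr_ae (ae_of_all _ fun z => ?_)
          simp only [ha]
          ring
        linarith
      have hle : ∫ z, a z * b z ∂P ≤ ∫ z, (a z ^ 2 + b z ^ 2) / 2 ∂P :=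
        integral_mono (Lb.integrable_mul La |>.congr (ae_of_all _ fun z => mul_comm _ _))
          ((La.integrable_sq.add Lb.integrable_sq).div_const 2)
          fun z => by nlinarith [sq_nonneg (a z - b z)]
      rw [integral_div, integral_add La.integrable_sq Lb.integrable_sq, hb2] at hle
      simp only [jump, ha] at hle ⊢
      linarith
    linarith

/-- **Efron–Stein**. -/
theorem efron_stein (hF : MemLp F 2 (gauss ι)) :
    (∫ g, F g ^ 2 ∂gauss ι) - (∫ g, F g ∂gauss ι) ^ 2 ≤ ∑ i, jump F i := by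
  refine le_of_eq_of_le ?_ (efron_aux hF Finset.univ)
  have hm := memLp_mix hF
  have i1 : Integrable (fun z => F (mix ∅ z) ^ 2) (gauss (ι ⊕ ι)) := (hm ∅).integrable_sq
  have i2 : Integrable (fun z => F (mix ∅ z) * F (mix Finset.univ z)) (gauss (ι ⊕ ι)) :=
    (hm ∅).integrable_mul (hm Finset.univ)
  have hp : ∫ z, F (mix ∅ z) * F (mix Finset.univ z) ∂gauss (ι ⊕ ι) = (∫ g, F g ∂gauss ι) ^ 2 := by
    have hmp : MeasurePreserving (MeasurableEquiv.sumPiEquivProdPi fun _ : ι ⊕ ι => ℝ)
        (gauss (ι ⊕ ι)) ((gauss ι).prod (gauss ι)) :=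
      measurePreserving_sumPiEquivProdPi fun _ : ι ⊕ ι => gaussianReal 0 1
    rw [sq, ← integral_prod_mul (μ := gauss ι) (ν := gauss ι) F F,
      ← hmp.integral_comp' (fun q : (ι → ℝ) × (ι → ℝ) => F q.1 * F q.2)]
    refine integral_congr_ae (ae_of_all _ fun z => ?_)
    have h0 : mix ∅ z = fun i => z (Sum.inl i) := funext fun i => by simp [mix]
    have h1 : mix Finset.univ z = fun i => z (Sum.inr i) := funext fun i => by simp [mix]
    simp only [h0, h1]
    rfl
  calc (∫ g, F g ^ 2 ∂gauss ι) - (∫ g, F g ∂gauss ι) ^ 2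
      = (∫ z, F (mix ∅ z) ^ 2 ∂gauss (ι ⊕ ι))
          - ∫ z, F (mix ∅ z) * F (mix Finset.univ z) ∂gauss (ι ⊕ ι) := by
        rw [hp, integral_comp_mp (gauss_mix ∅) (F := fun g => F g ^ 2)
          (hF.aestronglyMeasurable.pow 2)]
    _ = _ := by
        rw [← integral_sub i1 i2]
        exact integral_congr_ae (ae_of_all _ fun z => by ring)

/-- An increment along one coordinate is controlled by the derivative along it. -/
lemma jump_le {f' : (ι → ℝ) → ℝ} {i : ι} (hFc : Continuous F) (hc : Continuous f')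
    (hd : ∀ g t, HasDerivAt (fun s => F (Function.update g i s)) (f' (Function.update g i t)) t)
    (hi : Integrable (fun g => f' g ^ 2) (gauss ι)) :
    jump F i ≤ ∫ g, f' g ^ 2 ∂gauss ι := by
  set ν := gaussianReal 0 1
  have hmp : MeasurePreserving (fun z : ι ⊕ ι → ℝ => (fun j => z (Sum.inl j), z (Sum.inr i)))
      (gauss (ι ⊕ ι)) ((gauss ι).prod ν) :=
    ((MeasurePreserving.id (gauss ι)).prod (measurePreserving_eval (fun _ : ι => ν) i)).comp
      (measurePreserving_sumPiEquivProdPi fun _ : ι ⊕ ι => ν)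
  set G : (ι → ℝ) × ℝ → ℝ≥0∞ := fun q =>
    ENNReal.ofReal ((F q.1 - F (Function.update q.1 i q.2)) ^ 2) with hG
  have hu : Continuous fun q : (ι → ℝ) × ℝ => Function.update q.1 i q.2 :=
    continuous_fst.update i continuous_snd
  have hFu : Continuous fun q : (ι → ℝ) × ℝ => F (Function.update q.1 i q.2) := hFc.comp hu
  have hGm : Measurable G := by
    rw [hG]
    exact (((hFc.comp continuous_fst).sub hFu).pow 2).measurable.ennreal_ofReal
  have hJm : Measurable fun g => ∫⁻ t, G (g, t) ∂ν := hGm.lintegral_prod_right'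
  have key : ∫⁻ z, ENNReal.ofReal ((F (mix ∅ z) - F (mix {i} z)) ^ 2) ∂gauss (ι ⊕ ι)
      ≤ 2 * ∫⁻ g, ENNReal.ofReal (f' g ^ 2) ∂gauss ι := by
    calc _ = ∫⁻ z, G ((fun j => z (Sum.inl j)), z (Sum.inr i)) ∂gauss (ι ⊕ ι) := by
          refine lintegral_congr fun z => ?_
          have h0 : mix ∅ z = fun j => z (Sum.inl j) := funext fun j => by simp [mix]
          have h1 : mix {i} z = Function.update (fun j => z (Sum.inl j)) i (z (Sum.inr i)) :=
            funext fun j => by by_cases h : j = i <;> simp [mix, h]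
          rw [h0, h1]
      _ = ∫⁻ q, G q ∂(gauss ι).prod ν := hmp.lintegral_comp hGm
      _ = ∫⁻ g, ∫⁻ t, G (g, t) ∂ν ∂gauss ι := lintegral_prod _ hGm.aemeasurable
      _ = ∫⁻ q, ∫⁻ t, G (Function.update q.1 i q.2, t) ∂ν ∂(gauss ι).prod ν :=
          ((gauss_update i).lintegral_comp hJm).symm
      _ = ∫⁻ g, ∫⁻ s, ∫⁻ t, G (Function.update g i s, t) ∂ν ∂ν ∂gauss ι :=
          lintegral_prod _ (hJm.comp hu.measurable).aemeasurable
      _ ≤ ∫⁻ g, 2 * ∫⁻ s, ENNReal.ofReal (f' (Function.update g i s) ^ 2) ∂ν ∂gauss ι := by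
          refine lintegral_mono fun g => ?_
          simp only [hG, Function.update_idem]
          exact lintegral_sq_sub_le (hd g) (hc.comp (continuous_const.update i continuous_id))
      _ = _ := by
          rw [lintegral_const_mul' _ _ ENNReal.ofNat_ne_top,
            ← lintegral_prod (fun q : (ι → ℝ) × ℝ =>
              ENNReal.ofReal (f' (Function.update q.1 i q.2) ^ 2))
              ((hc.comp hu).pow 2).measurable.ennreal_ofReal.aemeasurable]
          congr 1
          exact (gauss_update i).lintegral_comp (f := fun g => ENNReal.ofReal (f' g ^ 2))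
            (hc.pow 2).measurable.ennreal_ofReal
  rw [← ofReal_integral_eq_lintegral_ofReal hi (ae_of_all _ fun g => sq_nonneg _),
    ← ENNReal.ofReal_ofNat 2, ← ENNReal.ofReal_mul zero_le_two] at key
  have hmeas : AEStronglyMeasurable (fun z => (F (mix ∅ z) - F (mix {i} z)) ^ 2) (gauss (ι ⊕ ι)) :=
    (((hFc.aestronglyMeasurable).comp_measurePreserving (gauss_mix ∅)).sub
      ((hFc.aestronglyMeasurable).comp_measurePreserving (gauss_mix {i}))).pow 2
  have h0 : 0 ≤ 2 * ∫ g, f' g ^ 2 ∂gauss ι :=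
    mul_nonneg zero_le_two (integral_nonneg fun g => sq_nonneg _)
  rw [jump, integral_eq_lintegral_of_nonneg_ae (ae_of_all _ fun z => sq_nonneg _) hmeas]
  have := ENNReal.toReal_le_of_le_ofReal h0 key
  linarith

/-- **Gaussian Poincaré inequality**, sharp constant. -/
theorem poincare {D : ι → (ι → ℝ) → ℝ} (hFc : Continuous F) (hF : MemLp F 2 (gauss ι))
    (hD : ∀ i, Continuous (D i))
    (hd : ∀ i g t, HasDerivAt (fun s => F (Function.update g i s)) (D i (Function.update g i t)) t)
    (hi : ∀ i, Integrable (fun g => D i g ^ 2) (gauss ι)) :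
    ∫ g, F g ^ 2 ∂gauss ι ≤ (∫ g, F g ∂gauss ι) ^ 2 + ∫ g, ∑ i, D i g ^ 2 ∂gauss ι := by
  have h := efron_stein hF
  have h2 := Finset.sum_le_sum fun i (_ : i ∈ Finset.univ) => jump_le hFc (hD i) (hd i) (hi i)
  rw [integral_finsetSum _ fun i _ => hi i]
  linarith

/-- The vector form. -/
theorem poincare_vec {F : κ → (ι → ℝ) → ℝ} {D : ι → κ → (ι → ℝ) → ℝ}
    (hFc : ∀ a, Continuous (F a)) (hF : ∀ a, MemLp (F a) 2 (gauss ι))
    (hD : ∀ i a, Continuous (D i a))
    (hd : ∀ i a g t,
      HasDerivAt (fun s => F a (Function.update g i s)) (D i a (Function.update g i t)) t)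
    (hi : ∀ i a, Integrable (fun g => D i a g ^ 2) (gauss ι)) :
    ∫ g, ∑ a, F a g ^ 2 ∂gauss ι ≤
      ∑ a, (∫ g, F a g ∂gauss ι) ^ 2 + ∫ g, ∑ a, ∑ i, D i a g ^ 2 ∂gauss ι := by
  rw [integral_finsetSum _ fun a _ => (hF a).integrable_sq,
    integral_finsetSum _ fun a _ => integrable_finsetSum _ fun i _ => hi i a,
    ← Finset.sum_add_distrib]
  exact Finset.sum_le_sum fun a _ => poincare (hFc a) (hF a) (fun i => hD i a) (fun i => hd i a)
    fun i => hi i a

/-- **Fourth moment**: the mean square of `|F|²` exceeds the square of its mean by at most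
`4 E|Dᵀ F|²`. -/
theorem poincare_four {F : κ → (ι → ℝ) → ℝ} {D : ι → κ → (ι → ℝ) → ℝ}
    (hFc : ∀ a, Continuous (F a)) (hN : MemLp (fun g => ∑ a, F a g ^ 2) 2 (gauss ι))
    (hD : ∀ i a, Continuous (D i a))
    (hd : ∀ i a g t,
      HasDerivAt (fun s => F a (Function.update g i s)) (D i a (Function.update g i t)) t)
    (hi : ∀ i, Integrable (fun g => (∑ a, F a g * D i a g) ^ 2) (gauss ι)) :
    ∫ g, (∑ a, F a g ^ 2) ^ 2 ∂gauss ι ≤ (∫ g, ∑ a, F a g ^ 2 ∂gauss ι) ^ 2 +
      4 * ∫ g, ∑ i, (∑ a, F a g * D i a g) ^ 2 ∂gauss ι := by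
  have h := poincare (D := fun i g => 2 * ∑ a, F a g * D i a g)
    (continuous_finsetSum _ fun a _ => (hFc a).pow 2) hN
    (fun i => continuous_const.mul (continuous_finsetSum _ fun a _ => (hFc a).mul (hD i a)))
    (fun i g t => by
      refine (HasDerivAt.fun_sum fun a _ => (hd i a g t).pow 2).congr_deriv ?_
      rw [Finset.mul_sum]
      refine Finset.sum_congr rfl fun a _ => ?_
      simp
      ring)
    (fun i => by simpa [mul_pow] using (hi i).const_mul ((2:ℝ) ^ 2))
  refine h.trans (le_of_eq ?_)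
  rw [← integral_const_mul]
  congr 1
  refine integral_congr_ae (ae_of_all _ fun g => ?_)
  simp only [mul_pow, ← Finset.mul_sum]
  norm_num

end mix

end Vale.Agent.P150.Weak
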