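import Vale.Agent.P146.Tilt
import Vale.Agent.P150.Weak.GaussDiv

/-!
Change of law under a translation of standard Gaussians.
-/

open MeasureTheory ProbabilityTheory Real Finset
open scoped Classical

namespace Vale.Agent.P150.Weak

open P146 (tilt gauss_shift_eq)

variable {ι : Type*} [Fintype ι]

lemma integral_shift (θ : ι → ℝ) {φ : (ι → ℝ) → ℝ} (hc : Continuous φ) :
    ∫ g, φ (fun i => θ i + g i) ∂gauss ι = ∫ g, tilt θ g * φ g ∂gauss ι := by
  have hm : Measurable fun g : ι → ℝ => fun i => θ i + g i := by fun_prop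
  rw [← integral_map hm.aemeasurable hc.aestronglyMeasurable, gauss_shift_eq,
    integral_withDensity_eq_integral_toReal_smul (by unfold tilt; fun_prop)
      (ae_of_all _ fun g => ENNReal.ofReal_lt_top)]
  refine integral_congr_ae (ae_of_all _ fun g => ?_)
  simp only [smul_eq_mul, ENNReal.toReal_ofReal (show 0 ≤ tilt θ g from (exp_pos _).le)]

lemma tilt_sq (θ g : ι → ℝ) :
    tilt θ g ^ 2 = exp (∑ i, θ i ^ 2) * tilt (fun i => 2 * θ i) g := by
  rw [tilt, tilt, sq, ← exp_add, ← exp_add]
  congr 1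
  simp only [mul_assoc, mul_pow, ← Finset.mul_sum, ← Finset.sum_div]
  ring

lemma integrable_tilt (θ : ι → ℝ) : Integrable (tilt θ) (gauss ι) := by
  have h : Integrable (fun g : ι → ℝ => ∏ i, exp (θ i * g i - θ i ^ 2 / 2)) (gauss ι) :=
    Integrable.fintype_prod (f := fun i x => exp (θ i * x - θ i ^ 2 / 2)) fun i => by
      simp only [sub_eq_add_neg, exp_add]
      exact (integrable_exp_mul_gaussianReal (θ i)).mul_const _
  refine h.congr (ae_of_all _ fun g => ?_)
  simp only [tilt, ← exp_sum, Finset.sum_sub_distrib]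

lemma integral_tilt (θ : ι → ℝ) : ∫ g, tilt θ g ∂gauss ι = 1 := by
  have h := integral_shift θ (φ := fun _ => 1) continuous_const
  simp only [mul_one, integral_const, probReal_univ, one_smul] at h
  exact h.symm

lemma memLp_tilt (θ : ι → ℝ) : MemLp (tilt θ) 2 (gauss ι) := by
  refine (memLp_two_iff_integrable_sq (integrable_tilt θ).aestronglyMeasurable).2 ?_
  simp only [tilt_sq]
  exact (integrable_tilt _).const_mul _

/-- `E|tilt - 1|² = exp|θ|² - 1`. -/
lemma integral_tilt_sub_sq (θ : ι → ℝ) :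
    ∫ g, (tilt θ g - 1) ^ 2 ∂gauss ι = exp (∑ i, θ i ^ 2) - 1 := by
  have e : (fun g => (tilt θ g - 1) ^ 2) = fun g =>
      exp (∑ i, θ i ^ 2) * tilt (fun i => 2 * θ i) g + ((-2) * tilt θ g + 1) :=
    funext fun g => by rw [← tilt_sq]; ring
  have i2 : Integrable (fun g => (-2) * tilt θ g) (gauss ι) := (integrable_tilt θ).const_mul _
  have i3 : Integrable (fun g => (-2) * tilt θ g + 1) (gauss ι) := i2.add (integrable_const _)
  rw [e, integral_add ((integrable_tilt _).const_mul _) i3,
    integral_add i2 (integrable_const _), integral_const_mul,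
    integral_const_mul, integral_tilt, integral_tilt, integral_const, probReal_univ, one_smul]
  ring

/-- **Change of law.** Translating by `θ` costs `√(exp|θ|² - 1) √(E φ²)`. -/
theorem shift_le (θ : ι → ℝ) {φ : (ι → ℝ) → ℝ} (hc : Continuous φ) (hφ : MemLp φ 2 (gauss ι)) :
    ∫ g, φ (fun i => θ i + g i) ∂gauss ι ≤ (∫ g, φ g ∂gauss ι) +
      √(exp (∑ i, θ i ^ 2) - 1) * √(∫ g, φ g ^ 2 ∂gauss ι) := by
  set u := fun g => tilt θ g - 1 with hu
  have hul : MemLp u 2 (gauss ι) := (memLp_tilt θ).sub (memLp_const 1)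
  have hi : Integrable (fun g => u g * φ g) (gauss ι) := hul.integrable_mul hφ
  have hsplit : ∫ g, φ (fun i => θ i + g i) ∂gauss ι
      = (∫ g, φ g ∂gauss ι) + ∫ g, u g * φ g ∂gauss ι := by
    rw [integral_shift θ hc, ← integral_add (hφ.integrable one_le_two) hi]
    refine integral_congr_ae (ae_of_all _ fun g => ?_)
    simp only [hu]
    ring
  rw [hsplit]
  refine add_le_add le_rfl ?_
  set a := ∫ g, u g ^ 2 ∂gauss ι with ha
  set b := ∫ g, φ g ^ 2 ∂gauss ι with hb
  set I := ∫ g, u g * φ g ∂gauss ι with hI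
  have ha' : exp (∑ i, θ i ^ 2) - 1 = a := (integral_tilt_sub_sq θ).symm
  have ha0 : 0 ≤ a := integral_nonneg fun g => sq_nonneg _
  rw [ha', ← Real.sqrt_mul ha0]
  refine Real.le_sqrt_of_sq_le ?_
  have key : ∀ t : ℝ, 0 ≤ a * (t * t) + 2 * I * t + b := by
    intro t
    have i1 : Integrable (fun g => t * t * u g ^ 2) (gauss ι) := hul.integrable_sq.const_mul _
    have i2 : Integrable (fun g => 2 * t * (u g * φ g)) (gauss ι) := hi.const_mul _
    have i3 : Integrable (fun g => φ g ^ 2) (gauss ι) := hφ.integrable_sq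
    have i4 : Integrable (fun g => t * t * u g ^ 2 + 2 * t * (u g * φ g)) (gauss ι) := i1.add i2
    have h := integral_nonneg (μ := gauss ι) (f := fun g => (t * u g + φ g) ^ 2) fun g => sq_nonneg _
    have e : (fun g => (t * u g + φ g) ^ 2) =
        fun g => t * t * u g ^ 2 + 2 * t * (u g * φ g) + φ g ^ 2 := funext fun g => by ring
    rw [e, integral_add i4 i3, integral_add i1 i2, integral_const_mul, integral_const_mul] at h
    linarith
  have := discrim_le_zero key
  rw [discrim] at this
  nlinarith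

end Vale.Agent.P150.Weak
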