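import Vale.Agent.P150.Weak.Crude.Crude
import Vale.Agent.P150.Weak.Endpoint.Main
import Vale.Agent.P150.Weak.Gauss.JNorm
import Vale.Agent.P150.Weak.Gram.Main
import Vale.Agent.P150.Weak.Gram.Soft
import Vale.Agent.P150.Weak.Hess.Main
import Vale.Agent.P150.Weak.Local.Main
import Vale.Agent.P150.Weak.Overlap.Main
import Vale.Agent.P150.Weak.Rec.OneSpin
import Vale.Agent.P150.Weak.Rec.Rec
import Vale.Agent.P150.Weak.Rec.UI
import Vale.Agent.P150.Weak.Resp.Bound
import Vale.Agent.P150.Weak.Resp.Eps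
import Vale.Agent.P150.Weak.RespSoft.Main
import Vale.Agent.P150.Weak.YBound.Main
import Vale.Agent.P150.Weak.YBound.Xe

/-!
Assembly of the weak Poincaré inequality for every `β < 1`.
-/

namespace Vale.Agent.P150.Weak

/-- The weak Poincaré inequality with a constant independent of `n`, for every `b < 1`. -/
theorem weakPoincare {b : ℝ} (hb0 : 0 < b) (hb1 : b < 1) : WeakPoincareSpec b := by
  have hO := overlapSpec b hb0 hb1
  have hN := centerSpec b hb0 hb1
  have hG := Crude.grow_of_center hN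
  have hC := Crude.crude_of_center hN
  have hS := Rec.sliceSpec hG hC
  have hJ := jSpec hb0 hb1
  have hH := Hess.hessSpec hb0 hb1 hO hG hJ
  have hR := Rec.recSpec hb0 hb1 hG hC hN hS
  have hU := Rec.uiSpec hb0 hb1 hG hC hS
  have hB := Resp.respBoundSpec_of hG hC hN hS hR (Resp.epsFour hG hC hN)
  have hT := YB.yTight b hb0 hb1 hO hC hG hJ hH hB
  have hM := Gram.gramSpec hb0 hR hU hT hS
  have hP := RespSoft.respSoftSpec hN hG hC hS hR (Gram.softSpec hT hR hC hG)
  have hX := YB.xe_tight hb0 hb1 hO hC hS hJ hR hH hB hP hM hT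
  exact Local.weakPoincareSpec b (YB.ySpec_of b hb0 hb1 hO hJ hH hB hP hM hT hX)
    (endpointSpec hb0) (Local.contigSpec b hb0 hb1)

end Vale.Agent.P150.Weak
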