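import Mathlib.Logic.Function.Basic

/-!
A normal form for `Function.update` that forgets which equality test was used.
-/

namespace Vale.Agent.P150.Weak

universe u v

/-- `Function.update` with the classical equality test. -/
noncomputable def upd {ι : Sort u} {β : ι → Sort v} (g : ∀ i, β i) (i : ι) (s : β i) :
    ∀ j, β j :=
  @Function.update ι β (fun a b => Classical.propDecidable (a = b)) g i s

theorem update_eq_upd {ι : Sort u} {β : ι → Sort v} (d : DecidableEq ι) (g : ∀ i, β i) (i : ι)
    (s : β i) : @Function.update ι β d g i s = upd g i s := by
  rw [Subsingleton.elim d fun a b => Classical.propDecidable (a = b)]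
  rfl

end Vale.Agent.P150.Weak
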